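import Vale.Agent.P231.S3B4.Gauge

/-!
# P231, stage 3, [S3-B] (B4): the form `t₂` of a family of loops without circle action
-/

set_option linter.unusedSectionVars false
set_option linter.unusedVariables false

open MeasureTheory Set Module Filter Topology
open scoped ContDiff Real ENNReal

namespace Vale.Agent.P231.S3B4

open Vale.Agent.P231.Fm Vale.Agent.P231.W Vale.Agent.P231.H584 Vale.Agent.P231.S3L
  Vale.Agent.P231.H766

/-! ### vanishing on constant loops -/

section Van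

variable {X Y : Type*} {D : Dif X} {D' : Dif Y} {T : ℝ} {Φ : X × ℝ → X} (h : IsFlow D T Φ)

theorem van_xp {f : X → Y} (hf : D.Map D' f) (F : Form D') {Z : Set X}
    (hinv : ∀ x ∈ Z, ∀ t, Φ (x, t) ∈ Z) (hZ : ∀ x ∈ Z, ∀ t, f (Φ (x, t)) = f x) :
    Van Z (xp Φ h.map T (Form.pull f hf F)) := by
  rw [van_iff]
  let φ : Z × ℝ → Z := fun p => ⟨Φ ((p.1 : X), p.2), hinv p.1 p.1.2 p.2⟩
  have hφ : ((D.sub Z).prod (Dif.lin ℝ)).Map (D.sub Z) φ := fun {E} _ _ _ {u x} hu =>
    h.map (u := fun y => (((u y).1 : X), (u y).2)) ⟨hu.1, hu.2⟩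
  have h1 := pull_xp (φ := φ) (φ' := Φ) hφ h.map (Dif.map_sub (D := D) (S := Z))
    (fun x t => rfl) T (Form.pull f hf F)
  rw [h1]
  refine xp_of_basic ?_
  have h2 : (D.sub Z).Map D' fun z : Z => f z := fun hu => hf hu
  have h3 : Form.pull (Subtype.val : Z → X) Dif.map_sub (Form.pull f hf F) =
      Form.pull (fun z : Z => f z) h2 F :=
    pull_pull (Dif.map_sub (D := D) (S := Z)) hf h2 (fun _ => rfl) F
  rw [h3]
  exact basic_pull h2 (fun z t => hZ z z.2 t) F

theorem van_t2 {f : X → Y} (hf : D.Map D' f) (F : Form D') {Z : Set X}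
    (hinv : ∀ x ∈ Z, ∀ t, Φ (x, t) ∈ Z) (hZ : ∀ x ∈ Z, ∀ t, f (Φ (x, t)) = f x) :
    Van Z (t2 2 Φ h.map T (Form.pull f hf F)) := by
  rw [t2_def]
  exact Van.mul_right _ (van_xp h hf F hinv hZ)

end Van

/-! ### families without action -/

section Shift

variable {X : Type*} {D : Dif X}

/-- the shift of the loop parameter -/
def sh (p : (X × ℝ) × ℝ) : X × ℝ := (p.1.1, p.1.2 + p.2)

theorem map_sh : ((D.prod (Dif.lin ℝ)).prod (Dif.lin ℝ)).Map (D.prod (Dif.lin ℝ))
    (sh (X := X)) := by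
  intro E _ _ _ u x hu
  refine ⟨hu.1.1, ?_⟩
  have h1 : Sm (fun y => (u y).1.2) x := hu.1.2
  have h2 : Sm (fun y => (u y).2) x := hu.2
  have h3 : Sm (fun y => (u y).1.2 + (u y).2) x := by
    filter_upwards [h1, h2] with y e1 e2 using e1.add e2
  exact h3

variable {M : Type*} {DM : Dif M}

/-- **the form `t₂` of a family of loops** `C : X × ℝ → M` -/
noncomputable def T2n (C : X × ℝ → M) (hC : (D.prod (Dif.lin ℝ)).Map DM C) (F : Form DM) :
    Form D := at_ 0 (t2 2 sh map_sh 1 (Form.pull C hC F))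

theorem T2n_def (C : X × ℝ → M) (hC : (D.prod (Dif.lin ℝ)).Map DM C) (F : Form DM) :
    T2n C hC F = at_ 0 (t2 2 sh map_sh 1 (Form.pull C hC F)) := rfl

/-- naturality -/
theorem pull_T2n {X' : Type*} {D' : Dif X'} {f : X' → X} (hf : D'.Map D f) {C : X × ℝ → M}
    (hC : (D.prod (Dif.lin ℝ)).Map DM C) {C' : X' × ℝ → M}
    (hC' : (D'.prod (Dif.lin ℝ)).Map DM C') (h : ∀ x t, C' (x, t) = C (f x, t)) (F : Form DM) :
    Form.pull f hf (T2n C hC F) = T2n C' hC' F := by
  have h1 := pull_t2 (map_sh (D := D')) (map_sh (D := D)) (map_cyl hf) (fun x t => rfl) 2 1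
    (Form.pull C hC F)
  have h2 : Form.pull (fun p : X' × ℝ => (f p.1, p.2)) (map_cyl hf) (Form.pull C hC F) =
      Form.pull C' hC' F := pull_pull (map_cyl hf) hC hC' (fun p => (h p.1 p.2).symm) F
  rw [h2] at h1
  have h3 : D'.Map (D.prod (Dif.lin ℝ)) (fun x => (f x, (0 : ℝ))) := fun {E} _ _ _ {u x} hu =>
    ⟨hf hu, Sm.of_contDiff contDiff_const _⟩
  rw [T2n_def, T2n_def, at_, at_, ← h1, pull_pull hf (Form.map_slice 0) h3 (fun _ => rfl)]
  exact (pull_pull (Form.map_slice 0) (map_cyl hf) h3 (fun _ => rfl) _).symm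

end Shift

/-! ### the universal family -/

section LL

variable {M : Type*} [MetricSpace M] {DM : Dif M} {S : NNReal} {V : ℝ≥0∞} {δ : ℝ} {J : ℕ}

variable (S V δ J) in
/-- the form `t₂` on the universal family -/
noncomputable def t2L (F : Form DM) : Form (dLL DM S V δ J) :=
  t2 2 flw (isFlow (actL DM S V δ J)).map 1 (Form.pull ev0 map_ev0 F)

theorem t2L_def (F : Form DM) : t2L S V δ J F =
    t2 2 flw (isFlow (actL DM S V δ J)).map 1 (Form.pull ev0 map_ev0 F) := rfl

variable {X : Type*} {D : Dif X}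

theorem map_loops {s : X → LL DM S V δ J} (hs : D.Map (dLL DM S V δ J) s) :
    (D.prod (Dif.lin ℝ)).Map DM (fun p => (s p.1).c p.2) := by
  intro E _ _ _ u x hu
  have h1 : (dLL DM S V δ J).At (fun y => s (u y).1) x := hs hu.1
  exact at_time h1 hu.2

/-- the pull back of `t₂` by a map to the universal family only depends on the loops -/
theorem pull_t2L {s : X → LL DM S V δ J} (hs : D.Map (dLL DM S V δ J) s) (F : Form DM) :
    Form.pull s hs (t2L S V δ J F) = T2n (fun p => (s p.1).c p.2) (map_loops hs) F := by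
  have hS : (D.prod (Dif.lin ℝ)).Map (dLL DM S V δ J)
      (fun p : X × ℝ => (actL DM S V δ J).φ (s p.1) p.2) := by
    intro E _ _ _ u x hu
    have h1 : (dLL DM S V δ J).At (fun y => s (u y).1) x := hs hu.1
    exact (actL DM S V δ J).at_phi h1 hu.2
  have h1 := pull_t2 (φ := sh) (φ' := flw) (map_sh (D := D)) (isFlow (actL DM S V δ J)).map hS
    (fun p t => ((actL DM S V δ J).add (s p.1) p.2 t).symm) 2 1 (Form.pull ev0 map_ev0 F)
  have h2 : Form.pull (fun p : X × ℝ => (actL DM S V δ J).φ (s p.1) p.2) hS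
      (Form.pull ev0 map_ev0 F) = Form.pull (fun p => (s p.1).c p.2) (map_loops hs) F :=
    pull_pull hS map_ev0 (map_loops hs) (fun p => ev0_act (s p.1) p.2) F
  rw [h2] at h1
  rw [T2n_def, ← h1, t2L_def]
  have h3 : D.Map (dLL DM S V δ J) (fun x => s x) := hs
  exact (pull_pull (Form.map_slice 0) hS hs (fun x => (actL DM S V δ J).zero (s x)) _).symm

theorem univ_con_flow (hδ : 0 < δ) : Form.pull flw (isFlow (actL DM S V δ J)).map
    ((univ DM S V δ J).con hδ) = pr ((univ DM S V δ J).con hδ) + dt :=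
  (univ DM S V δ J).con_flow hδ

theorem t2L_d (hδ : 0 < δ) {F : Form DM} (hF : F.d = 0) (hFe : F.sg = F)
    (hFn : F ^ (2 + 1) = 0) : (t2L S V δ J F).d = 0 := by
  obtain ⟨g1, g2, g3⟩ := pull_good hF hFe hFn (map_ev0 (DM := DM) (S := S) (V := V) (δ := δ)
    (J := J))
  exact t2_d (isFlow (actL DM S V δ J)) one_ne_zero ((univ DM S V δ J).con_flow hδ)
    ((univ DM S V δ J).con_sg hδ) g2 g1 g3

theorem cst_inv : ∀ z ∈ {z : LL DM S V δ J | Cst z}, ∀ t, flw (A := actL DM S V δ J) (z, t) ∈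
    {z : LL DM S V δ J | Cst z} := fun z hz t => Cst.act (show Cst z from hz) t

theorem cst_ev : ∀ z ∈ {z : LL DM S V δ J | Cst z}, ∀ t,
    ev0 (flw (A := actL DM S V δ J) (z, t)) = ev0 z := fun z hz t => by
  change ev0 ((actL DM S V δ J).φ z t) = ev0 z
  rw [ev0_act]
  exact hz t

theorem van_t2L (F : Form DM) : Van {z | Cst z} (t2L S V δ J F) :=
  van_t2 (isFlow (actL DM S V δ J)) map_ev0 F cst_inv cst_ev

/-! ### the primitive of `t₂` -/

/-- the primitive of `t₂` from the primitive of `τ` -/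
noncomputable def lam1 (A C : ℝ) (hδ : 0 < δ) (F : Form DM) (lam : Form (dLL DM S V δ J)) :
    Form (dLL DM S V δ J) :=
  lam - gg A C flw (isFlow (actL DM S V δ J)).map 1 ((univ DM S V δ J).con hδ)
    (Form.pull ev0 map_ev0 F)

theorem lam1_d {A C : ℝ} (hδ : 0 < δ) {F : Form DM} (hF : F.d = 0) (hFe : F.sg = F)
    (hFn : F ^ (2 + 1) = 0) {lam : Form (dLL DM S V δ J)}
    (hlam : lam.d = tau A C flw (isFlow (actL DM S V δ J)).map 1 ((univ DM S V δ J).con hδ)
      (Form.pull ev0 map_ev0 F)) : (lam1 A C hδ F lam).d = t2L S V δ J F := by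
  obtain ⟨g1, g2, g3⟩ := pull_good hF hFe hFn (map_ev0 (DM := DM) (S := S) (V := V) (δ := δ)
    (J := J))
  rw [lam1, Form.d_sub, hlam, tau_gg (isFlow (actL DM S V δ J)) A C one_ne_zero
    ((univ DM S V δ J).con_flow hδ) ((univ DM S V δ J).con_sg hδ) g2 g1, add_sub_cancel_right]
  rfl

theorem lam1_van {A C : ℝ} (hδ : 0 < δ) (F : Form DM) {lam : Form (dLL DM S V δ J)}
    (hlam : Van {z | Cst z} lam) : Van {z | Cst z} (lam1 A C hδ F lam) := by
  have h1 : Van {z | Cst z} (xp flw (isFlow (actL DM S V δ J)).map 1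
      (Form.pull ev0 map_ev0 F)) :=
    van_xp (isFlow (actL DM S V δ J)) map_ev0 F cst_inv cst_ev
  have h2 : Van {z | Cst z} (gg A C flw (isFlow (actL DM S V δ J)).map 1
      ((univ DM S V δ J).con hδ) (Form.pull ev0 map_ev0 F)) := gg_van A C h1
  intro E _ _ _ u x hu hz
  rw [lam1, Form.sub_val, hlam hu hz, h2 hu hz, sub_zero]

/-- **change of the vector `a`**: two maps with the same loops and homotopic vectors -/
theorem lam_indep (hδ : 0 < δ) {F : Form DM} {ℓ : Form (dLL DM S V δ J)}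
    (hℓ : ℓ.d = t2L S V δ J F) {H : X × ℝ → LL DM S V δ J}
    (hH : (D.prod (Dif.lin ℝ)).Map (dLL DM S V δ J) H)
    (hc : ∀ x r t, (H (x, r)).c t = (H (x, 0)).c t) :
    Form.pull (fun x => H (x, 1)) (map_at hH 1) ℓ - Form.pull (fun x => H (x, 0)) (map_at hH 0) ℓ =
      (Form.K (Form.pull H hH ℓ)).d := by
  have h0 : Form.pull H hH (t2L S V δ J F) =
      pr (Form.pull (fun x => H (x, 0)) (map_at hH 0) (t2L S V δ J F)) := by
    rw [pull_t2L, pull_t2L]
    exact (pull_T2n (f := Prod.fst) Dif.map_fst (map_loops (map_at hH 0)) (map_loops hH)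
      (fun p t => hc p.1 p.2 t) F).symm
  have h1 := homotopy' (Form.pull H hH ℓ)
  rw [← Form.pull_d, hℓ, h0, K_pr, zero_add] at h1
  rw [← h1]
  congr 1
  · exact (at_pull_of hH 1 ℓ).symm
  · exact (at_pull_of hH 0 ℓ).symm

end LL

end Vale.Agent.P231.S3B4
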