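import Vale.Agent.P231.S3B4.Plt2
import Vale.Agent.P231.S3B1.LHt

/-!
# P231, stage 3, [S3-B] (B4): relative classes of families of loops
-/

set_option linter.unusedSectionVars false
set_option linter.unusedVariables false

open MeasureTheory Set Module Filter Topology
open scoped ContDiff Real ENNReal

namespace Vale.Agent.P231.S3B4

open Vale.Agent.P231.Fm Vale.Agent.P231.W Vale.Agent.P231.H584 Vale.Agent.P231.S3L
  Vale.Agent.P231.H766 Vale.Agent.P231.TW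
open Vale.Agent.P231.Fm.Form (IsDeg)

/-- the points of a space with plots -/
def Pt {Y : Type*} (DY : Dif Y) (y : Y) : Prop := DY.At (fun _ : ℝ => y) 0

theorem pt_of_at {Y : Type*} {DY : Dif Y} {E : Type} [NormedAddCommGroup E] [NormedSpace ℝ E]
    [FiniteDimensional ℝ E] {u : E → Y} {x : E} (h : DY.At u x) : Pt DY (u x) :=
  DY.comp (u := u) (g := fun _ : ℝ => x) (x := 0) h (Sm.of_contDiff contDiff_const _)

theorem Pt.map {Y Y' : Type*} {DY : Dif Y} {DY' : Dif Y'} {f : Y → Y'} (hf : DY.Map DY' f)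
    {y : Y} (h : Pt DY y) : Pt DY' (f y) := hf h

theorem Pt.at_const {Y : Type*} {DY : Dif Y} {y : Y} (h : Pt DY y) {E : Type}
    [NormedAddCommGroup E] [NormedSpace ℝ E] [FiniteDimensional ℝ E] (x : E) :
    DY.At (fun _ : E => y) x :=
  DY.comp (u := fun _ : ℝ => y) (g := fun _ : E => (0 : ℝ)) h (Sm.of_contDiff contDiff_const x)

/-- `t₂` only depends on the loops of the points -/
theorem T2n_congr {X M : Type*} {D : Dif X} {DM : Dif M} {C C' : X × ℝ → M}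
    (hC : (D.prod (Dif.lin ℝ)).Map DM C) (hC' : (D.prod (Dif.lin ℝ)).Map DM C')
    (h : ∀ x, Pt D x → ∀ t, C (x, t) = C' (x, t)) (F : Form DM) : T2n C hC F = T2n C' hC' F := by
  have h1 : Form.pull C hC F = Form.pull C' hC' F := by
    refine Form.ext_val fun E _ _ _ u x hu => ?_
    rw [Form.pull_val _ _ hu, Form.pull_val _ _ hu]
    refine F.congr (hC hu) ?_
    have h2 : ∀ᶠ y in 𝓝 x, D.At (fun y => (u y).1) y := D.open' hu.1
    filter_upwards [h2] with y hy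
    exact h (u y).1 (pt_of_at hy) (u y).2
  rw [T2n_def, T2n_def, h1]

variable {M : Type*} [MetricSpace M] {DM : Dif M} {S : NNReal} {W : ℝ≥0∞} {δ : ℝ} {J : ℕ}

section Def

variable {Y : Type*} {DY : Dif Y} {OY : Set Y} {c : Y → ℝ → M} {a : Y → Fin J → ℂ}

/-- a family of loops, short over the open set `OY` -/
structure FA (DY : Dif Y) (DM : Dif M) (S : NNReal) (W : ℝ≥0∞) (δ : ℝ) (J : ℕ) (OY : Set Y)
    (c : Y → ℝ → M) (a : Y → Fin J → ℂ) : Prop where
  opn : TH.Opn DY OY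
  map : DY.Map (dLp DM) c
  mapa : (DY.on OY).Map (Dif.lin (Fin J → ℂ)) a
  per : ∀ y, Pt DY y → ∀ t, c y (t + 1) = c y t
  lip : ∀ y, Pt DY y → LipschitzWith S (c y)
  var : ∀ y ∈ OY, Pt DY y → eVariationOn (c y) (Icc 0 1) ≤ W
  cov : ∀ y ∈ OY, Pt DY y → ∃ j, δ ≤ ‖a y j‖

open Classical in
/-- the classifying map, with a default value -/
noncomputable def tl (z0 : LL DM S W δ J) (c : Y → ℝ → M) (a : Y → Fin J → ℂ) (y : Y) :
    LL DM S W δ J :=
  if h : (Dif.lin ℝ).Map DM (c y) ∧ (∀ t, c y (t + 1) = c y t) ∧ LipschitzWith S (c y) ∧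
      eVariationOn (c y) (Icc 0 1) ≤ W ∧ ∃ j, δ ≤ ‖a y j‖ then
    ⟨c y, a y, h.1, h.2.1, h.2.2.1, h.2.2.2.1, h.2.2.2.2⟩ else z0

namespace FA

variable (h : FA DY DM S W δ J OY c a)
include h

theorem sm {y : Y} (hy : Pt DY y) : (Dif.lin ℝ).Map DM (c y) := by
  intro E _ _ _ u x hu
  exact map_uncurry h.map (u := fun s : E => (y, u s)) (x := x) ⟨hy.at_const x, hu⟩

theorem tl_c (z0 : LL DM S W δ J) {y : Y} (hO : y ∈ OY) (hy : Pt DY y) :
    (tl z0 c a y).c = c y := by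
  rw [tl, dif_pos ⟨h.sm hy, h.per y hy, h.lip y hy, h.var y hO hy, h.cov y hO hy⟩]

theorem tl_a (z0 : LL DM S W δ J) {y : Y} (hO : y ∈ OY) (hy : Pt DY y) :
    (tl z0 c a y).a = a y := by
  rw [tl, dif_pos ⟨h.sm hy, h.per y hy, h.lip y hy, h.var y hO hy, h.cov y hO hy⟩]

/-- the classifying map is smooth -/
theorem map_tl (z0 : LL DM S W δ J) : (DY.on OY).Map (dLL DM S W δ J) (tl z0 c a) := by
  intro E _ _ _ u x hu
  have hpt : ∀ᶠ y in 𝓝 x, Pt DY (u y) := (DY.open' hu.1).mono fun y hy => pt_of_at hy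
  refine ⟨?_, ?_⟩
  · have h1 : (dLp DM).At (c ∘ u) x := h.map hu.1
    filter_upwards [h1, hu.2.eventually_nhds, hpt.eventually_nhds] with y hy hO hp t
    refine DM.congr (hy t) ?_
    have h3 : ∀ᶠ p : E × ℝ in 𝓝 (y, t), u p.1 ∈ OY :=
      (continuous_fst.tendsto (y, t)).eventually hO
    have h4 : ∀ᶠ p : E × ℝ in 𝓝 (y, t), Pt DY (u p.1) :=
      (continuous_fst.tendsto (y, t)).eventually hp
    filter_upwards [h3, h4] with p hp hp'
    exact (congrFun (h.tl_c z0 hp hp') p.2).symm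
  · have h1 : Sm (a ∘ u) x := h.mapa hu
    refine h1.congr ?_
    filter_upwards [hu.2, hpt] with y hy hy'
    exact (h.tl_a z0 hy hy').symm

/-- pull back -/
theorem comp {Y' : Type*} {DY' : Dif Y'} {f : Y' → Y} (hf : DY'.Map DY f) {OY' : Set Y'}
    (hO : TH.Opn DY' OY') (hm : ∀ y ∈ OY', f y ∈ OY) :
    FA DY' DM S W δ J OY' (fun y => c (f y)) fun y => a (f y) where
  opn := hO
  map := fun {E} _ _ _ {u x} hu => h.map (u := fun y => f (u y)) (hf hu)
  mapa := fun {E} _ _ _ {u x} hu => h.mapa (u := fun y => f (u y)) (hf.on_on hm hu)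
  per y hy := h.per _ (hf hy)
  lip y hy := h.lip _ (hf hy)
  var y hO hy := h.var _ (hm y hO) (hf hy)
  cov y hO hy := h.cov _ (hm y hO) (hf hy)

/-- the form `t₂` of the family -/
noncomputable def T (F : Form DM) : Form DY := Form.pull c h.map (t2P F)

/-- the primitive -/
noncomputable def L (z0 : LL DM S W δ J) (ℓ : Form (dLL DM S W δ J)) : Form (DY.on OY) :=
  Form.pull (tl z0 c a) (h.map_tl z0) ℓ

theorem T_eq (F : Form DM) : h.T F = T2n (fun p => c p.1 p.2) (map_uncurry h.map) F :=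
  pull_t2P h.map F

/-- `t₂` of a family of closed curves is closed -/
theorem T_d (z0 : LL DM S W δ J) {F : Form DM} (hF : F.d = 0) (hFe : F.sg = F)
    (hFn : F ^ (2 + 1) = 0) : (h.T F).d = 0 := by
  let z1 : LL DM S ⊤ 1 1 := ⟨z0.c, fun _ => 1, z0.sm, z0.per, z0.lip, le_top, ⟨0, by simp⟩⟩
  have h1 : FA DY DM S ⊤ 1 1 univ c fun _ _ => 1 :=
    { opn := TH.opn_univ
      map := h.map
      mapa := fun {E} _ _ _ {u x} hu => Sm.of_contDiff contDiff_const _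
      per := h.per
      lip := h.lip
      var := fun y _ _ => le_top
      cov := fun y _ _ => ⟨0, by simp⟩ }
  have h2 : DY.Map (DY.on univ) id := fun {E} _ _ _ {u x} hu =>
    ⟨hu, Eventually.of_forall fun _ => mem_univ _⟩
  have h3 : DY.Map (dLL DM S ⊤ 1 1) (tl z1 c fun _ _ => 1) := fun {E} _ _ _ {u x} hu =>
    h1.map_tl z1 (h2 hu)
  have h4 : h.T F = Form.pull _ h3 (t2L S ⊤ 1 1 F) := by
    rw [pull_t2L, h.T_eq]
    exact T2n_congr _ _ (fun x hx t => (congrFun (h1.tl_c z1 (mem_univ _) hx) t).symm) F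
  rw [h4, ← Form.pull_d, t2L_d one_pos hF hFe hFn, H584.pull_zero]

/-- **the relative class of a family** -/
theorem rel (z0 : LL DM S W δ J) {F : Form DM} (hF : F.d = 0) (hFe : F.sg = F)
    (hFn : F ^ (2 + 1) = 0) (hF8 : IsDeg 8 F) {ℓ : Form (dLL DM S W δ J)}
    (hℓ : ℓ.d = t2L S W δ J F) (hℓd : IsDeg 28 ℓ) : Rel DY OY (h.T F) (h.L z0 ℓ) where
  opn := h.opn
  cl := h.T_d z0 hF hFe hFn
  d := by
    have h1 : (DY.on OY).Map (dLp DM) c := fun {E} _ _ _ {u x} hu => h.map hu.1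
    rw [L, T, ← Form.pull_d, hℓ, pull_t2L]
    have h2 : Form.res OY (Form.pull c h.map (t2P F)) = Form.pull c h1 (t2P F) :=
      pull_pull Dif.map_on h.map h1 (fun _ => rfl) _
    rw [h2, pull_t2P h1]
    refine T2n_congr _ _ (fun x hx t => ?_) F
    exact congrFun (h.tl_c z0 hx.2.self_of_nhds hx.1) t
  degT := IsDeg.pull (isDeg_t2P hF8) _ _
  degL := IsDeg.pull hℓd _ _

end FA

end Def

/-- the slices -/
theorem map_slice_on {Y : Type*} {DY : Dif Y} {OY : Set Y} (r : ℝ) :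
    (DY.on OY).Map ((DY.prod (Dif.lin ℝ)).on (OY ×ˢ (univ : Set ℝ))) fun y => (y, r) :=
  fun {E} _ _ _ {u x} hu => ⟨Form.map_slice r hu.1, hu.2.mono fun y hy => ⟨hy, mem_univ _⟩⟩

/-! ### homotopies of families -/

section Hty

variable {V : Type} [NormedAddCommGroup V] [NormedSpace ℝ V] [FiniteDimensional ℝ V]
  [MeasurableSpace V] [BorelSpace V]
variable {Y : Type*} {DY : Dif Y} {OY : Set Y} {U O B : Set V} {κ : V → Y} {χ : V → ℝ}

/-- the plot times the line -/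
theorem Plt.prod (h : Plt U O B DY OY κ) (ht : TH.Thin ((Dif.lin V).on (U ∩ Bᶜ)) DY κ 26) :
    PltH U O B (DY.prod (Dif.lin ℝ)) (OY ×ˢ (univ : Set ℝ)) fun p : V × ℝ => (κ p.1, p.2) where
  opU := h.opU
  opO := h.opO
  sub := h.sub
  clB := h.clB
  map := fun {E} _ _ _ {u x} hu => ⟨h.map hu.1, hu.2⟩
  mem x hx r := ⟨h.mem x hx, mem_univ r⟩
  thin := thin_prod ht

/-- **homotopy invariance for a homotopy of relative classes** -/
theorem Pn_htpy_rel {N k : ℕ} (hN : N = k + 1) (b : Basis (Fin N) ℝ V) (h : Plt U O B DY OY κ)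
    (ht : TH.Thin ((Dif.lin V).on (U ∩ Bᶜ)) DY κ 26) {T : Form (DY.prod (Dif.lin ℝ))}
    {L : Form ((DY.prod (Dif.lin ℝ)).on (OY ×ˢ (univ : Set ℝ)))}
    (hR : Rel (DY.prod (Dif.lin ℝ)) (OY ×ˢ (univ : Set ℝ)) T L) (hχ : Cut U O B χ)
    {T0 T1 : Form DY} {L0 L1 : Form (DY.on OY)}
    (e0 : T0 = Form.pull (fun y => (y, (0 : ℝ))) (Form.map_slice 0) T)
    (e1 : T1 = Form.pull (fun y => (y, (1 : ℝ))) (Form.map_slice 1) T)
    (f0 : L0 = Form.pull (fun y => (y, (0 : ℝ))) (map_slice_on 0) L)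
    (f1 : L1 = Form.pull (fun y => (y, (1 : ℝ))) (map_slice_on 1) L) :
    Pn b χ h T1 L1 = Pn b χ h T0 L0 := by
  have h1 := Pn_htpy hN b (h.prod ht) hR hχ
  have key : ∀ c : ℝ, Pn b χ ((h.prod ht).at_ c) T L =
      Pn b χ h (Form.pull (fun y => (y, c)) (Form.map_slice c) T)
        (Form.pull (fun y => (y, c)) (map_slice_on c) L) := fun c => by
    rw [Pn, Pn]
    congr 1
    · exact (pull_pull h.map (Form.map_slice c) ((h.prod ht).at_ c).map (fun _ => rfl) T).symm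
    · exact (pull_pull h.mapO _ ((h.prod ht).at_ c).mapO (fun _ => rfl) L).symm
  rw [key, key] at h1
  rw [e0, e1, f0, f1]
  exact h1

/-- **homotopy invariance for a homotopy of families** -/
theorem Pn_htpy_fa {N k : ℕ} (hN : N = k + 1) (b : Basis (Fin N) ℝ V) (h : Plt U O B DY OY κ)
    (ht : TH.Thin ((Dif.lin V).on (U ∩ Bᶜ)) DY κ 26) {H : Y × ℝ → ℝ → M}
    {A : Y × ℝ → Fin J → ℂ}
    (hH : FA (DY.prod (Dif.lin ℝ)) DM S W δ J (OY ×ˢ (univ : Set ℝ)) H A)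
    {c0 c1 : Y → ℝ → M} {a0 a1 : Y → Fin J → ℂ} (h0 : FA DY DM S W δ J OY c0 a0)
    (h1 : FA DY DM S W δ J OY c1 a1) (z0 : LL DM S W δ J) {F : Form DM} (hF : F.d = 0)
    (hFe : F.sg = F) (hFn : F ^ (2 + 1) = 0) (hF8 : IsDeg 8 F) {ℓ : Form (dLL DM S W δ J)}
    (hℓ : ℓ.d = t2L S W δ J F) (hℓd : IsDeg 28 ℓ) (hχ : Cut U O B χ)
    (e0 : ∀ y, Pt DY y → ∀ t, H (y, 0) t = c0 y t) (e1 : ∀ y, Pt DY y → ∀ t, H (y, 1) t = c1 y t)
    (f0 : ∀ y ∈ OY, Pt DY y → A (y, 0) = a0 y) (f1 : ∀ y ∈ OY, Pt DY y → A (y, 1) = a1 y) :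
    Pn b χ h (h1.T F) (h1.L z0 ℓ) = Pn b χ h (h0.T F) (h0.L z0 ℓ) := by
  have key : ∀ {c' : Y → ℝ → M} {a' : Y → Fin J → ℂ} (h' : FA DY DM S W δ J OY c' a') (r : ℝ)
      (hc : ∀ y, Pt DY y → ∀ t, H (y, r) t = c' y t) (ha : ∀ y ∈ OY, Pt DY y → A (y, r) = a' y),
      h'.T F = Form.pull (fun y => (y, r)) (Form.map_slice r) (hH.T F) ∧
      h'.L z0 ℓ = Form.pull (fun y => (y, r)) (map_slice_on r) (hH.L z0 ℓ) := by
    intro c' a' h' r hc ha
    constructor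
    · have k1 : DY.Map (dLp DM) (fun y => H (y, r)) := fun {E} _ _ _ {u x} hu =>
        hH.map (Form.map_slice r hu)
      have k2 : Form.pull (fun y => (y, r)) (Form.map_slice r) (hH.T F) =
          Form.pull _ k1 (t2P F) := pull_pull (Form.map_slice r) hH.map k1 (fun _ => rfl) _
      rw [k2, pull_t2P, h'.T_eq]
      exact T2n_congr _ _ (fun y hy t => (hc y hy t).symm) F
    · refine Form.ext_val fun E _ _ _ u x hu => ?_
      rw [FA.L, FA.L, Form.pull_val _ _ hu, Form.pull_val _ _ hu]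
      have hu1 : ((DY.prod (Dif.lin ℝ)).on (OY ×ˢ (univ : Set ℝ))).At (fun y => (u y, r)) x :=
        ⟨Form.map_slice r hu.1, hu.2.mono fun y hy => ⟨hy, mem_univ _⟩⟩
      have e3 := Form.pull_val (hH.map_tl z0) ℓ hu1
      have e4 : (Form.pull (tl z0 H A) (hH.map_tl z0) ℓ).val ((fun y => (y, r)) ∘ u) x =
        ℓ.val (tl z0 H A ∘ fun y => (u y, r)) x := e3
      rw [e4]
      refine ℓ.congr (h'.map_tl z0 hu) ?_
      filter_upwards [hu.2, DY.open' hu.1] with y hO hy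
      have hp : Pt DY (u y) := pt_of_at hy
      have hp' : Pt (DY.prod (Dif.lin ℝ)) (u y, r) := Pt.map (Form.map_slice r) hp
      refine LL.ext' (fun t => ?_) fun j => ?_
      · have k1 := congrFun (h'.tl_c z0 hO hp) t
        have k2 := congrFun (hH.tl_c z0 (y := (u y, r)) ⟨hO, mem_univ _⟩ hp') t
        exact (k1.trans (hc _ hp t).symm).trans k2.symm
      · have k1 := congrFun (h'.tl_a z0 hO hp) j
        have k2 := congrFun (hH.tl_a z0 (y := (u y, r)) ⟨hO, mem_univ _⟩ hp') j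
        exact (k1.trans (congrFun (ha _ hO hp) j).symm).trans k2.symm
  obtain ⟨p0, q0⟩ := key h0 0 e0 f0
  obtain ⟨p1, q1⟩ := key h1 1 e1 f1
  exact Pn_htpy_rel hN b h ht (hH.rel z0 hF hFe hFn hF8 hℓ hℓd) hχ p0 p1 q0 q1

end Hty

end Vale.Agent.P231.S3B4
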