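import Vale.Agent.P231.S3B4.Rel

/-!
# P231, stage 3, [S3-B] (B4): restriction, total integrals, linear changes of variables
-/

set_option linter.unusedSectionVars false
set_option linter.unusedVariables false

open MeasureTheory Set Module Filter Topology
open scoped ContDiff Real ENNReal

namespace Vale.Agent.P231.S3B4

open Vale.Agent.P231.Fm Vale.Agent.P231.W Vale.Agent.P231.H584 Vale.Agent.P231.S3L
  Vale.Agent.P231.H766 Vale.Agent.P231.TW
open Vale.Agent.P231.Fm.Form (IsDeg)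

variable {V : Type} [NormedAddCommGroup V] [NormedSpace ℝ V] [FiniteDimensional ℝ V]
  [MeasurableSpace V] [BorelSpace V]

/-! ### change of bases -/

/-- a linear change of variables changes integrals of forms by a sign -/
theorem JJ_self {N : ℕ} (b : Basis (Fin N) ℝ V) (L : V ≃L[ℝ] V) :
    ∃ s : ℝ, s ^ 2 = 1 ∧ ∀ w : V → Lam V, JJ b (pb L w) = s * JJ b w := by
  set c : ℝ := LinearMap.det ((L : V →L[ℝ] V) : V →ₗ[ℝ] V) with hc
  have hc0 : c ≠ 0 := by
    have h1 : c = ((LinearEquiv.det L.toLinearEquiv : ℝˣ) : ℝ) := (LinearEquiv.coe_det _).symm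
    rw [h1]
    exact Units.ne_zero _
  refine ⟨c / |c|, ?_, fun w => ?_⟩
  · rw [div_pow, sq_abs, div_self (pow_ne_zero 2 hc0)]
  have h1 : ∀ x, HasFDerivWithinAt L (L : V →L[ℝ] V) univ x := fun x =>
    L.hasFDerivAt.hasFDerivWithinAt
  have h2 := integral_image_eq_integral_abs_det_fderiv_smul b.addHaar MeasurableSet.univ
    (fun x _ => h1 x) L.injective.injOn (fun x => evalForm (w x) b)
  rw [image_univ, L.surjective.range_eq, setIntegral_univ, setIntegral_univ] at h2
  unfold JJ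
  rw [h2, ← integral_const_mul]
  refine integral_congr_ae (Eventually.of_forall fun x => ?_)
  beta_reduce
  rw [pb, L.fderiv, evalForm_pull_det]
  have h3 : ContinuousLinearMap.det (L : V →L[ℝ] V) = c := rfl
  rw [h3, smul_eq_mul, ← hc]
  have h4 : |c| ≠ 0 := abs_ne_zero.2 hc0
  field_simp

/-- the integrals with respect to two bases agree up to a sign -/
theorem JJ_basis {N : ℕ} (b b' : Basis (Fin N) ℝ V) :
    ∃ s : ℝ, s ^ 2 = 1 ∧ ∀ w : V → Lam V, JJ b' w = s * JJ b w := by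
  let L : V ≃L[ℝ] V := (b.equiv b' (Equiv.refl _)).toContinuousLinearEquiv
  have hL : b.map L.toLinearEquiv = b' := by
    refine Basis.eq_of_apply_eq fun i => ?_
    rw [Basis.map_apply]
    change (b.equiv b' (Equiv.refl _)) (b i) = b' i
    rw [Basis.equiv_apply]
    rfl
  obtain ⟨s, hs, h⟩ := JJ_self b L
  refine ⟨s, hs, fun w => ?_⟩
  rw [← hL, ← JJ_pb_equiv, h]

/-! ### the relative form and changes of variables -/

theorem wv_pb {V' : Type} [NormedAddCommGroup V'] [NormedSpace ℝ V'] [FiniteDimensional ℝ V']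
    (A : V ≃L[ℝ] V') {χ : V' → ℝ} (hχ : Differentiable ℝ χ) (T ℓ : V' → Lam V') (x : V) :
    wv (χ ∘ A) (pb A T) (pb A ℓ) x = pb A (wv χ T ℓ) x := by
  rw [pb, wv, wv, pb, pb, map_add, map_smul, map_mul, pull_dx]
  congr 3
  rw [fderiv_comp x (hχ _) A.differentiableAt]

section Res

variable {U O B U' O' : Set V} {T : Form ((Dif.lin V).on U)} {L : Form ((Dif.lin V).on O)}
  {χ : V → ℝ}

theorem Cut.of_res (hU : U' ⊆ U) (hO : O' ⊆ O) (hχ : Cut U' O' B χ)
    (hx : ∀ x ∈ U, x ∈ B → x ∉ O → x ∈ U') : Cut U O B χ where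
  smooth := hχ.smooth
  cpt := hχ.cpt
  supp := hχ.supp.trans hU
  one x hU' hx' := by
    have h1 : x ∉ O := fun h => hx' (Or.inl h)
    have h2 : x ∈ B := by
      by_contra h
      exact hx' (Or.inr ⟨hU', h⟩)
    refine hχ.one x (hx x hU' h2 h1) fun h => ?_
    rcases h with h | h
    · exact h1 (hO h)
    · exact h.2 h2

/-- restriction does not change the number -/
theorem Wf_res {N : ℕ} (b : Basis (Fin N) ℝ V) (h : Pk U O B T L) (hU : U' ⊆ U) (hO : O' ⊆ O)
    (opU' : IsOpen U') (opO' : IsOpen O') (hχ : Cut U' O' B χ) :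
    Wf b χ (Form.pull id (Dif.map_on_mono hU) T) (Form.pull id (Dif.map_on_mono hO) L) =
      Wf b χ T L := by
  refine JJ_congr b fun x => ?_
  by_cases hx : x ∈ tsupport χ
  · have hxU : x ∈ U' := hχ.supp hx
    have e1 : (Form.pull id (Dif.map_on_mono hU) T).val (id : V → V) x = T.val id x := by
      rw [Form.pull_val _ _ (at_on opU' hxU)]
      rfl
    rw [wv, wv, e1]
    by_cases hxO : x ∈ O'
    · have e2 : (Form.pull id (Dif.map_on_mono hO) L).val (id : V → V) x = L.val id x := by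
        rw [Form.pull_val _ _ (at_on opO' hxO)]
        rfl
      rw [e2]
    · by_cases hB : x ∈ B
      · have h1 : x ∉ O' ∪ (U' \ B) := fun h2 => h2.elim hxO fun h3 => h3.2 hB
        rw [fderiv_of_eventually_const (hχ.one x hxU h1), map_zero, zero_mul, zero_mul]
      · have e2 : (Form.pull id (Dif.map_on_mono hO) L).val (id : V → V) x = 0 :=
          (Form.pull id (Dif.map_on_mono hO) L).junk fun h1 => hxO (mem_of_at h1)
        rw [e2, van_val h.vL h.clB hB]
  · rw [wv_zero hχ hx, wv_zero hχ hx]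

end Res

section Plt

variable {Y : Type*} {DY : Dif Y} {OY : Set Y} {T : Form DY} {L : Form (DY.on OY)}
variable {U O B U' O' : Set V} {κ : V → Y} {χ : V → ℝ}

/-- restriction of plots -/
theorem Pn_res {N : ℕ} (b : Basis (Fin N) ℝ V) (h : Plt U O B DY OY κ)
    (h' : Plt U' O' B DY OY κ) (hR : Rel DY OY T L) (hU : U' ⊆ U) (hO : O' ⊆ O)
    (hχ : Cut U' O' B χ) : Pn b χ h' T L = Pn b χ h T L := by
  rw [Pn, Pn, ← Wf_res b (h.pk hR) hU hO h'.opU h'.opO hχ]
  congr 1
  · exact (pull_pull (Dif.map_on_mono hU) h.map h'.map (fun _ => rfl) T).symm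
  · exact (pull_pull (Dif.map_on_mono hO) h.mapO h'.mapO (fun _ => rfl) L).symm

/-- the plots which agree on `U` -/
theorem Pn_congr {N : ℕ} (b : Basis (Fin N) ℝ V) {κ' : V → Y} (h : Plt U O B DY OY κ)
    (h' : Plt U O B DY OY κ') (hκ : ∀ x ∈ U, κ x = κ' x) : Pn b χ h T L = Pn b χ h' T L := by
  have e1 : Form.pull κ h.map T = Form.pull κ' h'.map T := by
    refine Form.ext_val fun E _ _ _ u x hu => ?_
    rw [Form.pull_val _ _ hu, Form.pull_val _ _ hu]
    refine T.congr (h.map hu) ?_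
    filter_upwards [hu.2] with y hy using hκ _ hy
  have e2 : Form.pull κ h.mapO L = Form.pull κ' h'.mapO L := by
    refine Form.ext_val fun E _ _ _ u x hu => ?_
    rw [Form.pull_val _ _ hu, Form.pull_val _ _ hu]
    refine L.congr (h.mapO hu) ?_
    filter_upwards [hu.2] with y hy using hκ _ (h.sub hy)
  rw [Pn, Pn, e1, e2]

/-- **the total integral** -/
theorem Pn_total {N k : ℕ} (hN : N = k + 1) (b : Basis (Fin N) ℝ V) {K : Set V}
    (hK : IsCompact K) (h : Plt univ O K DY OY κ) (hR : Rel DY OY T L)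
    (hχ : Cut univ O K χ) (hκ : (Dif.lin V).Map DY κ) :
    JJ b ((Form.pull κ hκ T).val id) = Pn b χ h T L := by
  have h1 := Wn_total hN b (h.pk hR).pair hχ hK (fun x hx => van_val (h.pk hR).vT h.clB hx)
    fun x _ hx => van_val (h.pk hR).vL h.clB hx
  rw [Pn, Wf, ← h1]
  refine JJ_congr b fun x => ?_
  rw [Form.pull_val _ _ (Sm.of_contDiff contDiff_id x : (Dif.lin V).At (id : V → V) x),
    Form.pull_val _ _ (at_on isOpen_univ (mem_univ x))]

end Plt

/-! ### linear changes of variables -/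

section Lin

variable {V' : Type} [NormedAddCommGroup V'] [NormedSpace ℝ V'] [FiniteDimensional ℝ V']
  [MeasurableSpace V'] [BorelSpace V']
variable {Y : Type*} {DY : Dif Y} {OY : Set Y} {T : Form DY} {L : Form (DY.on OY)}
variable {U O B : Set V'} {κ : V' → Y} {χ : V' → ℝ}

theorem Plt.lin (h : Plt U O B DY OY κ) (A : V ≃L[ℝ] V') :
    Plt (A ⁻¹' U) (A ⁻¹' O) (A ⁻¹' B) DY OY fun x => κ (A x) where
  opU := h.opU.preimage A.continuous
  opO := h.opO.preimage A.continuous
  sub := preimage_mono h.sub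
  clB := h.clB.preimage A.continuous
  map := fun {E} _ _ _ {u x} hu => h.map (u := fun y => A (u y))
    ⟨(Sm.of_contDiff A.contDiff _).comp hu.1, hu.2⟩
  mem x hx := h.mem _ hx
  thin := h.thin.comp_right (g := A) (D₀ := (Dif.lin V).on (A ⁻¹' U ∩ (A ⁻¹' B)ᶜ))
    fun {E} _ _ _ {u x} hu => ⟨(Sm.of_contDiff A.contDiff _).comp hu.1, hu.2⟩

theorem Cut.lin (hχ : Cut U O B χ) (A : V ≃L[ℝ] V') :
    Cut (A ⁻¹' U) (A ⁻¹' O) (A ⁻¹' B) (χ ∘ A) where
  smooth := hχ.smooth.comp A.contDiff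
  cpt := hχ.cpt.comp_homeomorph A.toHomeomorph
  supp := by
    have h1 : tsupport (χ ∘ A) = A ⁻¹' tsupport χ := tsupport_comp_eq_preimage χ A.toHomeomorph
    rw [h1]
    exact preimage_mono hχ.supp
  one x hx hx' := by
    have h1 := hχ.one (A x) hx (fun h => hx' h)
    exact A.continuous.continuousAt.eventually h1

/-- **linear change of variables** -/
theorem Pn_lin {N : ℕ} (b : Basis (Fin N) ℝ V) (h : Plt U O B DY OY κ) (A : V ≃L[ℝ] V')
    (hR : Rel DY OY T L) (hχ : Cut U O B χ) :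
    Pn b (χ ∘ A) (h.lin A) T L = Pn (b.map A.toLinearEquiv) χ h T L := by
  rw [Pn, Pn, Wf, Wf, Wn, Wn, ← JJ_pb_equiv b A]
  have hd : Differentiable ℝ χ := hχ.smooth.differentiable (by simp)
  have key : ∀ {O₁ : Set V'} (hO₁ : IsOpen O₁) {D₂ : Dif Y} (h1 : ((Dif.lin V').on O₁).Map D₂ κ)
      (h2 : ((Dif.lin V).on (A ⁻¹' O₁)).Map D₂ fun x => κ (A x)) (w : Form D₂) (x : V),
      (Form.pull (fun x => κ (A x)) h2 w).val (id : V → V) x =
        pb A ((Form.pull κ h1 w).val (id : V' → V')) x := by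
    intro O₁ hO₁ D₂ h1 h2 w x
    by_cases hx : A x ∈ O₁
    · have k1 : ((Dif.lin V).on (A ⁻¹' O₁)).At (id : V → V) x :=
        at_on (hO₁.preimage A.continuous) hx
      have k2 : ((Dif.lin V').on O₁).At (id : V' → V') (A x) := at_on hO₁ hx
      rw [Form.pull_val _ _ k1, pb, Form.pull_val _ _ k2]
      have h3 := w.nat (u := κ) (g := A) (x := x) (h1 k2) (Sm.of_contDiff A.contDiff x)
      exact h3
    · have k1 : ¬ ((Dif.lin V).on (A ⁻¹' O₁)).At (id : V → V) x := fun h3 =>
        hx (show A x ∈ O₁ from mem_of_at (x := x) (O := A ⁻¹' O₁) h3)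
      have k2 : ¬ ((Dif.lin V').on O₁).At (id : V' → V') (A x) := fun h3 => hx (mem_of_at h3)
      rw [Form.junk _ k1, pb, Form.junk _ k2, map_zero]
  refine JJ_congr b fun x => ?_
  rw [← wv_pb A hd, wv, wv, key h.opU h.map, key h.opO h.mapO]

end Lin

end Vale.Agent.P231.S3B4
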