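import Vale.Agent.P231.S3B6.Tot
import Vale.Agent.P231.S3B.GcV
import Vale.Agent.P231.S3B4c.Geo
import Vale.Agent.P231.S3B4.Plt2

/-!
# P231, stage 3, [S3-B] (B4): the relative number of the closed family
-/

set_option maxSynthPendingDepth 3
set_option linter.unusedSectionVars false
set_option linter.unusedVariables false

open Bundle Manifold Set Filter Module MeasureTheory
open scoped ContDiff Manifold Topology ENNReal

namespace Vale.Agent.P231.S3B4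

open Vale.Agent.P234 Vale.Agent.P231 Vale.Agent.P231.Fm Vale.Agent.P231.W Vale.Agent.P231.WR
open Vale.Agent.P231.S3L Vale.Agent.P231.H584
open Vale.Agent.P231.TW (JJ)
open Vale.Agent.P231.S3B1 (GY dGY cl lf_cl v8 Gc PmN exists_margin Sp)
open Vale.Agent.P231.S3B4c (Vec cmbE cmbE_apply contDiff_cmbE)
open Vale.Agent.P231.S2II (Eul)
open Vale.Agent.P231.S3B6 (OG cp opn_OG fa_cp Pn_cp plt_of_bx thin_of_bx)
open Vale.Agent.P231.S3B (Frf Gz bx_Gz box_Gc)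

/-! ### cut-off functions -/

section Cuts

variable {V : Type} [NormedAddCommGroup V] [NormedSpace ℝ V] [FiniteDimensional ℝ V]
  {U O B : Set V} {χ : V → ℝ}

/-- a smaller support -/
theorem Cut.anti {B' : Set V} (hχ : Cut U O B χ) (hB : B' ⊆ B) : Cut U O B' χ where
  smooth := hχ.smooth
  cpt := hχ.cpt
  supp := hχ.supp
  one x hU' hx' := hχ.one x hU' fun h =>
    hx' (h.imp_right fun h1 => ⟨h1.1, fun h2 => h1.2 (hB h2)⟩)

/-- cut-off functions of a compact core -/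
theorem exists_cut_cpt (hU : IsOpen U) {C : Set V} (hC : IsCompact C) (hCU : C ⊆ U)
    (hs : ∀ x ∈ U, x ∈ B → x ∉ O → x ∈ C) : ∃ χ : V → ℝ, Cut U O B χ := by
  obtain ⟨t, ht, h1, h2⟩ := exists_compact_between hC hU hCU
  obtain ⟨f, hf, hf0, -⟩ := exists_contMDiffMap_one_nhds_of_subset_interior 𝓘(ℝ, V)
    (n := (⊤ : ℕ∞)) hC.isClosed h1
  refine ⟨f, f.contMDiff.contDiff, ?_, ?_, ?_⟩
  · refine HasCompactSupport.intro ht fun x hx => hf0 x hx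
  · refine (closure_minimal (fun x hx => ?_) ht.isClosed).trans h2
    by_contra h3
    exact hx (hf0 x h3)
  · intro x hxU hx
    have h3 : x ∈ C := hs x hxU (by
      by_contra h4
      exact hx (Or.inr ⟨hxU, h4⟩)) fun h4 => hx (Or.inl h4)
    have h5 := hf.filter_mono (nhds_le_nhdsSet h3)
    exact h5

end Cuts

noncomputable section

/-- orthonormal families give isometries -/
theorem norm_cmb_orth {ι : Type} [Fintype ι] {l : ℕ} {g : Fin l → EuclideanSpace ℝ ι}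
    (hg : Orthonormal ℝ g) (y : Eul l) : ‖cmbE g y‖ = ‖y‖ := by
  have h1 : ‖cmbE g y‖ ^ 2 = ‖y‖ ^ 2 := by
    rw [← real_inner_self_eq_norm_sq, cmbE_apply, hg.inner_sum, EuclideanSpace.real_norm_sq_eq]
    refine Finset.sum_congr rfl fun i _ => ?_
    rw [conj_trivial, sq]
  exact (sq_eq_sq₀ (norm_nonneg _) (norm_nonneg _)).1 h1

variable {E : Type*} [NormedAddCommGroup E] [NormedSpace ℝ E] [FiniteDimensional ℝ E]
  {M : Type*} [MetricSpace M] [ChartedSpace E M] [IsManifold 𝓘(ℝ, E) ∞ M]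
  [RiemannianBundle (fun x : M => TangentSpace 𝓘(ℝ, E) x)]
  [IsContMDiffRiemannianBundle 𝓘(ℝ, E) ∞ E (fun x : M => TangentSpace 𝓘(ℝ, E) x)]
  {e : ∀ x : M, TangentSpace 𝓘(ℝ, E) x → M}
  [CompactSpace M] [ConnectedSpace M] [IsRiemannianManifold 𝓘(ℝ, E) M]
  {D : ℝ} {ι : Type} [Fintype ι] [DecidableEq ι] {X δ : ι → UT E M → E} {ε : ℝ}

variable {Z : Type} [NormedAddCommGroup Z] [NormedSpace ℝ Z] [FiniteDimensional ℝ Z] {l : ℕ}

section Gen

variable {F : Facts e} {G₁ : Z → UT E M} {f : Fin l → Z → EuclideanSpace ℝ ι}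

theorem frf_of_vec (hV : Vec F D X δ ε G₁ f) (ho : ∀ x, Orthonormal ℝ fun i => f i x) :
    Frf F D X δ ε G₁ fun x => cmbE fun i => f i x where
  sm := contDiff_cmbE hV.sm
  pm := hV.pm_cmbE
  norm x y := norm_cmb_orth (ho x) y

variable {hD : 0 < D} {hB : InjGE e D} {hdiam : ∀ p q : M, dist p q ≤ D}
  (hP : ∀ x y : M, dist x y = D → finrank ℝ (H775.Pl e D x y) = l + 1)
  (h : S2N.Fam F hD hB hdiam l X δ ε)

/-- the quadruples of the closed family -/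
def kG (G₁ : Z → UT E M) (f : Fin l → Z → EuclideanSpace ℝ ι)
    (z : Z × (Eul l × (Eul l × Eul l))) : GY e D :=
  S3B1.Gc hP h (G₁ z.1, (cmbE (fun i => f i z.1) z.2.1, cmbE (fun i => f i z.1) z.2.2.1,
    cmbE (fun i => f i z.1) z.2.2.2))

/-- **the margin** -/
theorem exists_mG {s : ℝ} (hs : 0 < s) : ∃ m, m < 4 * D ∧ ∀ {Z : Type} [NormedAddCommGroup Z]
    [NormedSpace ℝ Z] [FiniteDimensional ℝ Z] {G₁ : Z → UT E M}
    {f : Fin l → Z → EuclideanSpace ℝ ι}, Vec F D X δ ε G₁ f →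
    (∀ x, Orthonormal ℝ fun i => f i x) → ∀ z : Z × (Eul l × (Eul l × Eul l)), s ≤ ‖z.2‖ →
      kG hP h G₁ f z ∈ OG F m := by
  obtain ⟨m, hm, hm2⟩ := exists_margin hP h hs
  refine ⟨m, hm, fun hV ho z hz => hm2 _ _ ?_⟩
  have h1 : PmN F D X δ ε _ (cmbE (fun i => _ ) z.2.1, cmbE (fun i => _) z.2.2.1,
      cmbE (fun i => _) z.2.2.2) = (cmbE (fun i => _) z.2.1, cmbE (fun i => _) z.2.2.1,
      cmbE (fun i => _) z.2.2.2) :=
    Prod.ext (hV.pm_cmbE z.1 z.2.1) (Prod.ext (hV.pm_cmbE z.1 z.2.2.1) (hV.pm_cmbE z.1 z.2.2.2))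
  rw [h1, Prod.norm_mk, Prod.norm_mk, norm_cmb_orth (ho z.1), norm_cmb_orth (ho z.1),
    norm_cmb_orth (ho z.1)]
  rwa [Prod.norm_def, Prod.norm_def] at hz

end Gen

section Main

variable (F : Facts e) (hD : 0 < D) (hB : InjGE e D) (hdiam : ∀ p q : M, dist p q ≤ D)
  (hl : ∀ x y : M, dist x y = D → finrank ℝ (H775.Pl e D x y) = 2 * 3 + 2)
  {p : M} {Pi : TangentSpace 𝓘(ℝ, E) p → TangentSpace 𝓘(ℝ, E) p →L[ℝ] TangentSpace 𝓘(ℝ, E) p}
  {o : TangentSpace 𝓘(ℝ, E) p → Fm.Lam (TangentSpace 𝓘(ℝ, E) p)}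
  {ρ : TangentSpace 𝓘(ℝ, E) p → ℝ} {r₀ : ℝ}
  (hJ : FE.LineP e D p 3 Pi o) (hρ : WE.Rho e D p ρ r₀) (a : ℝ)
  (h : S2N.Fam F hD hB hdiam 7 X δ ε) (hN : 2 ≤ finrank ℝ E)

/-- the support of the closed family -/
def KG (K1 : Set Z) : Set (Z × (Eul 7 × (Eul 7 × Eul 7))) :=
  K1 ×ˢ (Metric.closedBall (0 : Eul 7) 1 ×ˢ
    (Metric.closedBall (0 : Eul 7) 1 ×ˢ Metric.closedBall (0 : Eul 7) 1))

theorem isCompact_KG {K1 : Set Z} (hK1 : IsCompact K1) : IsCompact (KG K1) :=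
  hK1.prod ((isCompact_closedBall _ _).prod
    ((isCompact_closedBall _ _).prod (isCompact_closedBall _ _)))

variable [MeasurableSpace Z] [BorelSpace Z]
variable {F hD hB hdiam} {G₁ : Z → UT E M} {f : Fin 7 → Z → EuclideanSpace ℝ ι}
  (hV : Vec F D X δ ε G₁ f) (ho : ∀ x, Orthonormal ℝ fun i => f i x)
  {K1 : Set Z} (hK1 : IsCompact K1) {vo : UT E M} (hvo : ∀ x ∉ K1, G₁ x = vo)
  (hZ : finrank ℝ Z = 8)

include hV ho hK1 hvo hZ in
theorem bx_kG : S3B.Bx (dGY e D) (kG hl h G₁ f) (KG K1) 24 :=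
  bx_Gz (n := 3) hl h (fun {V} _ _ _ {u x} hu => (dUT E M).comp (u := G₁) (g := u)
    (hV.plot (u x)) hu) (frf_of_vec hV ho) hK1 hvo hZ finrank_euclideanSpace_fin

variable {U O B : Set (Z × (Eul 7 × (Eul 7 × Eul 7)))} {m : ℝ}

include hV ho hK1 hvo hZ in
/-- **the plot of the closed family** -/
theorem plt_kG (hU : IsOpen U) (hO : IsOpen O) (hOU : O ⊆ U)
    (hOO : ∀ z ∈ O, kG hl h G₁ f z ∈ OG F m) (hcB : IsClosed B) (hKB : KG K1 ⊆ B) :
    Plt U O B (dGY e D) (OG F m) (kG hl h G₁ f) where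
  opU := hU
  opO := hO
  sub := hOU
  clB := hcB
  map := fun {E} _ _ _ {u x} hu => (bx_kG hl h hV ho hK1 hvo hZ).map hu.1
  mem := hOO
  thin := ((thin_of_bx (bx_kG hl h hV ho hK1 hvo hZ)).subset fun z hz =>
    ⟨mem_univ _, fun h1 => hz.2 (hKB h1)⟩).mono (by norm_num)

include hN hV ho hK1 hvo hZ in
/-- **the relative number of the closed family** -/
theorem Pn_kG {b : Basis (Fin 29) ℝ (Z × (Eul 7 × (Eul 7 × Eul 7)))} (bZ : Basis (Fin 8) ℝ Z)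
    (hcB : IsClosed B) (hKB : KG K1 ⊆ B)
    (hcore : ∀ z ∈ B, kG hl h G₁ f z ∉ OG F m → z ∈ U)
    (hp : Plt U O B (dGY e D) (OG F m) (kG hl h G₁ f)) {S : NNReal} {δ₀ : ℝ} {J : ℕ}
    {α : GY e D → Fin J → ℂ}
    (hfa : FA (dGY e D) (dM E M) S (ENNReal.ofReal m) δ₀ J (OG F m) (cp F hB) α)
    (z0 : LL (dM E M) S (ENNReal.ofReal m) δ₀ J)
    (hFn : FE.FF F hD hB hdiam hl hJ hρ a ^ (2 + 1) = 0)
    (hF8 : Form.IsDeg 8 (FE.FF F hD hB hdiam hl hJ hρ a))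
    {ℓ : Form (dLL (dM E M) S (ENNReal.ofReal m) δ₀ J)}
    (hℓ : ℓ.d = t2L S (ENNReal.ofReal m) δ₀ J (FE.FF F hD hB hdiam hl hJ hρ a))
    (hℓd : Form.IsDeg 28 ℓ) {χ : Z × (Eul 7 × (Eul 7 × Eul 7)) → ℝ} (hχ : Cut U O B χ) :
    |Pn b χ hp (hfa.T (FE.FF F hD hB hdiam hl hJ hρ a)) (hfa.L z0 ℓ)| =
      3 * FE.kap 3 a ^ 3 *
        |JJ bZ (fun x => (FE.FF F hD hB hdiam hl hJ hρ a).val (fun x => foot (G₁ x)) x)| := by
  set w := FE.FF F hD hB hdiam hl hJ hρ a with hw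
  have hbx := bx_kG hl h hV ho hK1 hvo hZ
  have hwd : w.d = 0 := FE.FF_d F hD hB hdiam hl hJ hρ a
  have hwe : w.sg = w := FE.FF_sg F hD hB hdiam hl hJ hρ a
  have hopen : IsOpen (kG hl h G₁ f ⁻¹' OG F m) :=
    S3B6.isOpen_preimage_of_opn hbx.map (opn_OG F hB m)
  have hu : Plt univ (kG hl h G₁ f ⁻¹' OG F m) B (dGY e D) (OG F m) (kG hl h G₁ f) :=
    plt_kG hl h hV ho hK1 hvo hZ isOpen_univ hopen (subset_univ _) (fun z hz => hz) hcB hKB
  have hR := hfa.rel z0 hwd hwe hFn hF8 hℓ hℓd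
  have hOO : O ⊆ kG hl h G₁ f ⁻¹' OG F m := fun z hz => hp.mem z hz
  have h1 := Pn_res b hu hp hR (subset_univ _) hOO hχ
  have hχ1 : Cut univ (kG hl h G₁ f ⁻¹' OG F m) B χ :=
    hχ.of_res (subset_univ _) hOO fun x _ hxB hxO => hcore x hxB hxO
  have hχ2 := hχ1.anti hKB
  have h2 := Pn_cp F hD hB hdiam hbx (by norm_num) rfl b hfa z0 hwd hwe hFn hF8 hℓ hℓd hχ2
  rw [h1]
  change |Pn b χ (plt_of_bx hbx (by norm_num) (opn_OG F hB m)) (hfa.T w) (hfa.L z0 ℓ)| = _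
  rw [h2]
  have h3 := box_Gc (n := 3) (Z := Z) (H := Eul 7) (v := G₁)
    (f := fun x => cmbE fun i => f i x) hl hJ hρ a h hN
    (fun {V} _ _ _ {u x} hu => (dUT E M).comp (u := G₁) (g := u) (hV.plot (u x)) hu)
    (frf_of_vec hV ho) hK1 hvo (by norm_num) bZ (EuclideanSpace.basisFun (Fin 7) ℝ).toBasis b
  rw [← hw] at h3
  have h4 : kG hl h G₁ f = Gz (n := 3) F hD hB hdiam hl h G₁ (fun x => cmbE fun i => f i x) := rfl
  rw [h4]
  clear_value w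
  rw [h3]

end Main

end

end Vale.Agent.P231.S3B4
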