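import Vale.Agent.P231.S3B4.Fa
import Vale.Agent.P231.S3Y.Tot2

/-!
# P231, stage 3, [S3-B] (B4): the family of loops over the total space, in the form `FA`
-/

set_option maxSynthPendingDepth 3
set_option linter.unusedSectionVars false
set_option linter.unusedVariables false

open Bundle Manifold Set Filter Module MeasureTheory Topology
open scoped ContDiff Manifold Topology ENNReal

namespace Vale.Agent.P231.S3B4

open Vale.Agent.P234 Vale.Agent.P231 Vale.Agent.P231.Fm Vale.Agent.P231.W Vale.Agent.P231.WR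
open Vale.Agent.P231.WF Vale.Agent.P231.H766 Vale.Agent.P231.S2N Vale.Agent.P231.S3S
open Vale.Agent.P231.S3Y

section Mono

variable {Y : Type*} {DY : Dif Y} {M : Type*} [MetricSpace M] {DM : Dif M} {S : NNReal}
  {W : ℝ≥0∞} {δ : ℝ} {J : ℕ} {OY : Set Y} {c : Y → ℝ → M} {a : Y → Fin J → ℂ}

theorem FA.mono (h : FA DY DM S W δ J OY c a) {S' : NNReal} {W' : ℝ≥0∞} {δ' : ℝ} (hS : S ≤ S')
    (hW : W ≤ W') (hδ : δ' ≤ δ) : FA DY DM S' W' δ' J OY c a where
  opn := h.opn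
  map := h.map
  mapa := h.mapa
  per := h.per
  lip y hy := (h.lip y hy).weaken hS
  var y hO hy := (h.var y hO hy).trans hW
  cov y hO hy := (h.cov y hO hy).imp fun j hj => hδ.trans hj

theorem FA.mono_set (h : FA DY DM S W δ J OY c a) {O' : Set Y} (hO : TH.Opn DY O')
    (hs : O' ⊆ OY) : FA DY DM S W δ J O' c a where
  opn := hO
  map := h.map
  mapa := fun {E} _ _ _ {u x} hu => h.mapa (u := u) ⟨hu.1, hu.2.mono fun y hy => hs hy⟩
  per := h.per
  lip := h.lip
  var y hO hy := h.var y (hs hO) hy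
  cov y hO hy := h.cov y (hs hO) hy

/-- sets where a smooth function is large are open along plots -/
theorem opn_lt {f : Y → ℝ} (hf : DY.Map (Dif.lin ℝ) f) (s : ℝ) : TH.Opn DY {y | s < f y} := by
  refine ⟨fun {V} _ _ _ {u x} hu hx => ?_⟩
  have h1 : Sm (f ∘ u) x := hf hu
  exact h1.continuousAt.eventually (lt_mem_nhds hx)

end Mono

variable {E : Type*} [NormedAddCommGroup E] [NormedSpace ℝ E]
  {M : Type*} [MetricSpace M] [ChartedSpace E M]
  [RiemannianBundle (fun x : M => TangentSpace 𝓘(ℝ, E) x)]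
  {e : ∀ x : M, TangentSpace 𝓘(ℝ, E) x → M}
  [FiniteDimensional ℝ E] [IsManifold 𝓘(ℝ, E) ∞ M]
  [IsContMDiffRiemannianBundle 𝓘(ℝ, E) ∞ E (fun x : M => TangentSpace 𝓘(ℝ, E) x)]
  [CompactSpace M] [ConnectedSpace M] [IsRiemannianManifold 𝓘(ℝ, E) M]

variable {D : ℝ} {ι : Type} [Fintype ι] [DecidableEq ι]

variable {F : Facts e} {hD : 0 < D} {hB : InjGE e D} {hdiam : ∀ p q : M, dist p q ≤ D}
  {l : ℕ} {X δ Pc Ps : ι → UT E M → E} {ε r : ℝ} {C : Xi F D X δ ε → M}

theorem map_val_sub (S : Set (TY F D X δ ε)) :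
    ((dTY F D X δ ε).sub S).Map (dTY F D X δ ε) Subtype.val := fun hu => hu

/-- the square of the norm bounds the norm of the vector from below -/
theorem norm_w_ge {p : TY F D X δ ε} {s : ℝ} (hs : 0 ≤ s) (h : s < nsq p) :
    Real.sqrt (s / 3) ≤ ‖p.w‖ := by
  have h1 := nsq_le p
  rw [Real.sqrt_le_left (norm_nonneg _)]
  linarith

/-- **the family over the total space, in the form of `S3B4`** -/
theorem exists_faT (hP : ∀ x y : M, dist x y = D → finrank ℝ (H775.Pl e D x y) = l + 1)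
    (h : S2N.Fam F hD hB hdiam l X δ ε) (hC : StdX F hD hB hdiam X δ ε r C)
    (hm : MarginX F hD hB hdiam X δ ε C) {ε₁ : ℝ}
    (hPh : PhF F D X δ ε Pc Ps ε₁) (hr1 : 2 * r ≤ ε₁) :
    ∃ S₀ : NNReal, ∀ s₀ : ℝ, 0 < s₀ → ∃ m₀, 0 < m₀ ∧ m₀ < 4 * D ∧
      ∀ S : NNReal, S₀ ≤ S → ∀ m, m₀ ≤ m → ∀ {d : ℝ} {J : ℕ} {a₀ : Fin J → ℂ},
        (∃ j, d ≤ ‖a₀ j‖) →
        FA ((dTY F D X δ ε).sub (BT F D X δ ε ε₁)) (dM E M) S (ENNReal.ofReal m) d J
          {p | s₀ < nsq p.1} (fun p => cT F hD hB hdiam X δ ε C Pc Ps r p.1) fun _ => a₀ := by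
  obtain ⟨S₁, h1, h2⟩ := exists_LFT hP h hC hPh
  refine ⟨S₁.toNNReal, fun s₀ hs₀ => ?_⟩
  have hs : 0 < Real.sqrt (s₀ / 3) := Real.sqrt_pos.2 (by positivity)
  obtain ⟨m₀, hm0, hm1, h3⟩ := exists_marginT h hC hm hPh hr1 hs
  refine ⟨m₀, hm0, hm1, fun S hS m hmm {d} {J} {a₀} ha => ?_⟩
  exact
    { opn := opn_lt (f := fun p : BT F D X δ ε ε₁ => nsq p.1)
        (fun {E} _ _ _ {u x} hu => map_nsq (u := fun y => (u y).1) hu) s₀
      map := map_curry h2.smooth
      mapa := fun {E} _ _ _ {u x} hu => Sm.of_contDiff contDiff_const _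
      per := fun y _ => h2.per y
      lip := fun y _ => (LipschitzWith.of_dist_le_mul fun s t => by
        rw [Real.dist_eq, Real.coe_toNNReal _ h1]
        exact h2.lip y s t : LipschitzWith S₁.toNNReal _).weaken hS
      var := fun y hO _ => (h3 y.1 y.2.1 y.2.2 (norm_w_ge hs₀.le hO)).trans
        (ENNReal.ofReal_le_ofReal hmm)
      cov := fun y _ _ => ha }

/-- the same without the set -/
theorem exists_faT' (hP : ∀ x y : M, dist x y = D → finrank ℝ (H775.Pl e D x y) = l + 1)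
    (h : S2N.Fam F hD hB hdiam l X δ ε) (hC : StdX F hD hB hdiam X δ ε r C)
    {ε₁ : ℝ} (hPh : PhF F D X δ ε Pc Ps ε₁) :
    ∃ S₀ : NNReal, ∀ S : NNReal, S₀ ≤ S →
        FA ((dTY F D X δ ε).sub (BT F D X δ ε ε₁)) (dM E M) S ⊤ 1 1
          univ (fun p => cT F hD hB hdiam X δ ε C Pc Ps r p.1) fun _ _ => 1 := by
  obtain ⟨S₁, h1, h2⟩ := exists_LFT hP h hC hPh
  refine ⟨S₁.toNNReal, fun S hS => ?_⟩
  exact
    { opn := TH.opn_univ
      map := map_curry h2.smooth
      mapa := fun {E} _ _ _ {u x} hu => Sm.of_contDiff contDiff_const _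
      per := fun y _ => h2.per y
      lip := fun y _ => (LipschitzWith.of_dist_le_mul fun s t => by
        rw [Real.dist_eq, Real.coe_toNNReal _ h1]
        exact h2.lip y s t : LipschitzWith S₁.toNNReal _).weaken hS
      var := fun y hO _ => le_top
      cov := fun y _ _ => ⟨0, by simp⟩ }

end Vale.Agent.P231.S3B4
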