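import Vale.Agent.P231.S3B4.Rad2
import Vale.Agent.P231.S3B4c.Main
import Vale.Agent.P231.S3Y.Tot2

/-!
# P231, stage 3, [S3-B] (B4): the plots of `ξ ⊕ E'` given by frames
-/

set_option maxSynthPendingDepth 3
set_option linter.unusedSectionVars false
set_option linter.unusedVariables false

open Bundle Manifold Set Filter Module MeasureTheory Metric
open scoped ContDiff Manifold Topology ENNReal

namespace Vale.Agent.P231.S3B4

noncomputable section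

open Vale.Agent.P234 Vale.Agent.P231 Vale.Agent.P231.Fm Vale.Agent.P231.W Vale.Agent.P231.WR
open Vale.Agent.P231.H766 Vale.Agent.P231.S2N Vale.Agent.P231.S3S Vale.Agent.P231.XC
open Vale.Agent.P231.S3Y Vale.Agent.P231.H584 Vale.Agent.P231.S3B4c Vale.Agent.P231.S2II

/-! ### the euclidean norm of pairs -/

section Norm

variable {T : Type} [NormedAddCommGroup T] [InnerProductSpace ℝ T] [FiniteDimensional ℝ T]

/-- the euclidean norm of a pair -/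
def nwE (w : T × T) : ℝ := Real.sqrt (‖w.1‖ ^ 2 + ‖w.2‖ ^ 2)

theorem nwE_sq (w : T × T) : nwE w ^ 2 = ‖w.1‖ ^ 2 + ‖w.2‖ ^ 2 :=
  Real.sq_sqrt (by positivity)

theorem nwE_nonneg (w : T × T) : 0 ≤ nwE w := Real.sqrt_nonneg _

theorem norm_le_nwE (w : T × T) : ‖w‖ ≤ nwE w := by
  refine max_le ?_ ?_
  · refine Real.le_sqrt_of_sq_le ?_
    nlinarith [sq_nonneg ‖w.2‖]
  · refine Real.le_sqrt_of_sq_le ?_
    nlinarith [sq_nonneg ‖w.1‖]

theorem smN_nwE : SmN (nwE (T := T)) where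
  cont := by
    unfold nwE
    fun_prop
  smooth w hw := by
    have h1 : 0 < ‖w.1‖ ^ 2 + ‖w.2‖ ^ 2 := by
      have h2 : 0 < nwE w := (norm_pos_iff.2 hw).trans_le (norm_le_nwE w)
      rw [← nwE_sq]
      positivity
    have h3 : ContDiff ℝ ∞ fun w : T × T => ‖w.1‖ ^ 2 + ‖w.2‖ ^ 2 :=
      (contDiff_fst.norm_sq ℝ).add (contDiff_snd.norm_sq ℝ)
    exact h3.contDiffAt.sqrt h1.ne'
  hom c hc w := by
    unfold nwE
    rw [Prod.smul_fst, Prod.smul_snd, norm_smul, norm_smul, mul_pow, mul_pow, ← mul_add,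
      Real.sqrt_mul (by positivity), Real.norm_eq_abs, sq_abs, Real.sqrt_sq hc]
  pos w hw := (norm_pos_iff.2 hw).trans_le (norm_le_nwE w)
  cpt R := by
    have h1 : IsClosed {w : T × T | nwE w ≤ R} := by
      refine isClosed_le ?_ continuous_const
      unfold nwE
      fun_prop
    refine (isCompact_closedBall (0 : T × T) R).of_isClosed_subset h1 fun w hw => ?_
    exact mem_closedBall_zero_iff.2 ((norm_le_nwE w).trans hw)

end Norm

variable {E : Type*} [NormedAddCommGroup E] [NormedSpace ℝ E]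
  {M : Type*} [MetricSpace M] [ChartedSpace E M]
  [RiemannianBundle (fun x : M => TangentSpace 𝓘(ℝ, E) x)]
  {e : ∀ x : M, TangentSpace 𝓘(ℝ, E) x → M}
  [FiniteDimensional ℝ E] [IsManifold 𝓘(ℝ, E) ∞ M]
  [IsContMDiffRiemannianBundle 𝓘(ℝ, E) ∞ E (fun x : M => TangentSpace 𝓘(ℝ, E) x)]
  [CompactSpace M] [ConnectedSpace M] [IsRiemannianManifold 𝓘(ℝ, E) M]

variable {D : ℝ} {ι : Type} [Fintype ι] [DecidableEq ι]

variable {F : Facts e} {hD : 0 < D} {hB : InjGE e D} {hdiam : ∀ p q : M, dist p q ≤ D}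
  {l : ℕ} {X δ : ι → UT E M → E} {ε : ℝ}

variable {Z : Type} [NormedAddCommGroup Z] [NormedSpace ℝ Z] [FiniteDimensional ℝ Z]
variable {G₁ : Z → UT E M} {f : Fin l → Z → EuclideanSpace ℝ ι}

/-- the coordinates -/
abbrev Cd (Z : Type) (l : ℕ) : Type := Z × (Eul l × (Eul l × Eul l))

/-- the plot of `ξ ⊕ E'` -/
def kp (h : Vec F D X δ ε G₁ f) (p : Cd Z l) : TY F D X δ ε where
  v := G₁ p.1
  a := cmbE (fun i => f i p.1) p.2.1
  x := cmbE (fun i => f i p.1) p.2.2.1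
  y := cmbE (fun i => f i p.1) p.2.2.2
  pa := h.pm_cmbE _ _
  px := h.pm_cmbE _ _
  py := h.pm_cmbE _ _

@[simp] theorem kp_v (h : Vec F D X δ ε G₁ f) (p : Cd Z l) : (kp h p).v = G₁ p.1 := rfl
@[simp] theorem kp_a (h : Vec F D X δ ε G₁ f) (p : Cd Z l) :
    (kp h p).a = cmbE (fun i => f i p.1) p.2.1 := rfl
@[simp] theorem kp_x (h : Vec F D X δ ε G₁ f) (p : Cd Z l) :
    (kp h p).x = cmbE (fun i => f i p.1) p.2.2.1 := rfl
@[simp] theorem kp_y (h : Vec F D X δ ε G₁ f) (p : Cd Z l) :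
    (kp h p).y = cmbE (fun i => f i p.1) p.2.2.2 := rfl

theorem sm_cmb {T : Type*} [NormedAddCommGroup T] [NormedSpace ℝ T] (h : Vec F D X δ ε G₁ f)
    {u : T → Z} {y : T → Eul l} {x : T} (hu : Sm u x) (hy : Sm y x) :
    Sm (fun s => cmbE (fun i => f i (u s)) (y s)) x := by
  have h1 : ContDiff ℝ ∞ fun x => cmbE fun i => f i x := contDiff_cmbE h.sm
  filter_upwards [hu, hy] with s k1 k2
  exact (h1.contDiffAt.comp s k1).clm_apply k2

theorem map_kp (h : Vec F D X δ ε G₁ f) : (Dif.lin (Cd Z l)).Map (dTY F D X δ ε) (kp h) := by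
  intro E' _ _ _ u x hu
  have hu' : Sm u x := hu
  have h1 : Sm (fun y => (u y).1) x := hu'.fst
  refine at_TY.2 ⟨(dUT E M).comp (u := G₁) (g := fun y => (u y).1) (h.plot _) h1,
    sm_cmb h h1 hu'.snd.fst, sm_cmb h h1 hu'.snd.snd.fst, sm_cmb h h1 hu'.snd.snd.snd⟩

theorem nsq_kp (h : Vec F D X δ ε G₁ f) (ho : ∀ x, Orthonormal ℝ fun i => f i x) (p : Cd Z l) :
    nsq (kp h p) = ‖p.2.1‖ ^ 2 + nwE p.2.2 ^ 2 := by
  unfold nsq
  rw [kp_a, kp_x, kp_y, norm_cmbE (ho _), norm_cmbE (ho _), norm_cmbE (ho _), nwE_sq]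
  ring

/-- a point of the sphere bundle with given coordinates -/
structure Psi (h : Vec F D X δ ε G₁ f) (Ψ : Cd Z l → XS (pXi F D X δ ε)) : Prop where
  b : ∀ p, (Ψ p).b = h.A (p.1, p.2.1)
  x : ∀ p, p.2.2 ≠ 0 → rev' (Ψ p).z = (nwE p.2.2)⁻¹ • cmbE (fun i => f i p.1) p.2.2.1
  y : ∀ p, p.2.2 ≠ 0 → imv (Ψ p).z = (nwE p.2.2)⁻¹ • cmbE (fun i => f i p.1) p.2.2.2

variable {Ψ : Cd Z l → XS (pXi F D X δ ε)}

/-- the polar coordinates -/
theorem Psi.scT_eq {h : Vec F D X δ ε G₁ f} (hΨ : Psi h Ψ) {p : Cd Z l} (hp : p.2.2 ≠ 0) (s : ℝ) :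
    scT (toYY (Ψ p), s) = kp h (p.1, (p.2.1, (s / nwE p.2.2) • p.2.2)) := by
  have e1 : (toYY (Ψ p)).v = G₁ p.1 := congrArg Xi.v (hΨ.b p)
  have e2 : (toYY (Ψ p)).a = cmbE (fun i => f i p.1) p.2.1 := congrArg Xi.a (hΨ.b p)
  refine TY.ext e1 e2 ?_ ?_
  · change s • rev' (Ψ p).z = cmbE (fun i => f i p.1) ((s / nwE p.2.2) • p.2.2.1)
    rw [hΨ.x p hp, smul_smul, map_smul, div_eq_mul_inv]
  · change s • imv (Ψ p).z = cmbE (fun i => f i p.1) ((s / nwE p.2.2) • p.2.2.2)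
    rw [hΨ.y p hp, smul_smul, map_smul, div_eq_mul_inv]

/-! ### thinness -/

section Thin

variable {v₀ : UT E M}

/-- the fibre over a point -/
abbrev Rg (F : Facts e) (D : ℝ) (X δ : ι → UT E M → E) (ε : ℝ) (v₀ : UT E M) :
    Submodule ℝ (EuclideanSpace ℝ ι) :=
  LinearMap.range ((Pm F D X δ ε v₀ : EuclideanSpace ℝ ι →L[ℝ] EuclideanSpace ℝ ι) :
    EuclideanSpace ℝ ι →ₗ[ℝ] EuclideanSpace ℝ ι)

/-- the projection to the fibre over a point -/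
def rgP (F : Facts e) (D : ℝ) (X δ : ι → UT E M → E) (ε : ℝ) (v₀ : UT E M) :
    EuclideanSpace ℝ ι →L[ℝ] Rg F D X δ ε v₀ :=
  (Pm F D X δ ε v₀).codRestrict (Rg F D X δ ε v₀) fun y => ⟨y, rfl⟩

theorem rgP_eq {z : EuclideanSpace ℝ ι} (hz : Pm F D X δ ε v₀ z = z) :
    ((rgP F D X δ ε v₀ z : Rg F D X δ ε v₀) : EuclideanSpace ℝ ι) = z := hz

theorem Rg_fix (hF : S2N.Fam F hD hB hdiam l X δ ε) (z : Rg F D X δ ε v₀) :
    Pm F D X δ ε v₀ (z : EuclideanSpace ℝ ι) = z := by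
  obtain ⟨_, y, rfl⟩ := z
  exact hF.Pm_Pm v₀ y

/-- a map which factors, over the points where `G₁` is constant, through the fibre -/
theorem thin_far (hF : S2N.Fam F hD hB hdiam l X δ ε) (h : Vec F D X δ ε G₁ f)
    (hout : ∀ x, 1 < ‖x‖ → G₁ x = v₀) {Y : Type*} {DY : Dif Y} {κ : Cd Z l → Y}
    (c : Rg F D X δ ε v₀ × (Rg F D X δ ε v₀ × Rg F D X δ ε v₀) → Y)
    (hc : (Dif.lin _).Map DY c)
    (hκ : ∀ p : Cd Z l, 1 < ‖p.1‖ → ∀ A B C : Rg F D X δ ε v₀,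
      (A : EuclideanSpace ℝ ι) = cmbE (fun i => f i p.1) p.2.1 →
      (B : EuclideanSpace ℝ ι) = cmbE (fun i => f i p.1) p.2.2.1 →
      (C : EuclideanSpace ℝ ι) = cmbE (fun i => f i p.1) p.2.2.2 → κ p = c (A, (B, C))) :
    TH.Thin ((Dif.lin (Cd Z l)).on {p | 1 < ‖p.1‖}) DY κ (3 * l) := by
  refine ⟨fun {E'} _ _ _ {u x} hu => ?_⟩
  have hu' : Sm u x := hu.1
  have h1 : Sm (fun y => (u y).1) x := hu'.fst
  let g : E' → Rg F D X δ ε v₀ × (Rg F D X δ ε v₀ × Rg F D X δ ε v₀) := fun y =>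
    (rgP F D X δ ε v₀ (cmbE (fun i => f i (u y).1) (u y).2.1),
      (rgP F D X δ ε v₀ (cmbE (fun i => f i (u y).1) (u y).2.2.1),
        rgP F D X δ ε v₀ (cmbE (fun i => f i (u y).1) (u y).2.2.2)))
  have hs : ∀ {w : E' → Eul l}, Sm w x →
      Sm (fun y => rgP F D X δ ε v₀ (cmbE (fun i => f i (u y).1) (w y))) x := fun hw =>
    Sm.comp (f := fun z => rgP F D X δ ε v₀ z) (Sm.of_contDiff (rgP F D X δ ε v₀).contDiff _)
      (sm_cmb h h1 hw)
  refine ⟨_, inferInstance, inferInstance, inferInstance, c, g, ?_, ?_, ?_, ?_⟩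
  · rw [finrank_prod, finrank_prod]
    have h2 : finrank ℝ (Rg F D X δ ε v₀) = l := hF.finrank_range v₀
    rw [h2]
    omega
  · exact (hs hu'.snd.fst).prodMk ((hs hu'.snd.snd.fst).prodMk (hs hu'.snd.snd.snd))
  · exact hc (u := id) (Sm.of_contDiff contDiff_id _)
  · filter_upwards [hu.2] with y hy
    have h3 : 1 < ‖(u y).1‖ := hy
    have h4 : ∀ w : Eul l, Pm F D X δ ε v₀ (cmbE (fun i => f i (u y).1) w) =
        cmbE (fun i => f i (u y).1) w := fun w => by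
      rw [← hout _ h3]
      exact h.pm_cmbE _ _
    exact hκ (u y) h3 _ _ _ (rgP_eq (h4 _)) (rgP_eq (h4 _)) (rgP_eq (h4 _))

/-- the plot of `ξ ⊕ E'` is thin where `G₁` is constant -/
theorem thin_kp (hF : S2N.Fam F hD hB hdiam l X δ ε) (h : Vec F D X δ ε G₁ f)
    (hout : ∀ x, 1 < ‖x‖ → G₁ x = v₀) :
    TH.Thin ((Dif.lin (Cd Z l)).on {p | 1 < ‖p.1‖}) (dTY F D X δ ε) (kp h) (3 * l) := by
  let c : Rg F D X δ ε v₀ × (Rg F D X δ ε v₀ × Rg F D X δ ε v₀) → TY F D X δ ε := fun z =>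
    ⟨v₀, z.1, z.2.1, z.2.2, Rg_fix hF _, Rg_fix hF _, Rg_fix hF _⟩
  refine thin_far hF h hout c ?_ ?_
  · intro E' _ _ _ u x hu
    have hu' : Sm u x := hu
    have hs : ∀ {w : E' → Rg F D X δ ε v₀}, Sm w x →
        Sm (fun y => ((w y : Rg F D X δ ε v₀) : EuclideanSpace ℝ ι)) x := fun hw =>
      Sm.comp (f := fun z : Rg F D X δ ε v₀ => (z : EuclideanSpace ℝ ι))
        (Sm.of_contDiff (Rg F D X δ ε v₀).subtypeL.contDiff _) hw
    exact at_TY.2 ⟨H583.at_const v₀ _, hs hu'.fst, hs hu'.snd.fst, hs hu'.snd.snd⟩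
  · intro p hp A B C hA hB' hC
    exact TY.ext (hout _ hp) hA.symm hB'.symm hC.symm

end Thin

end

end Vale.Agent.P231.S3B4
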