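import Vale.Agent.P231.S3L.Van
import Vale.Agent.P231.S3L.Conn
import Vale.Agent.P231.S3L.Fam
import Vale.Agent.P231.H584.Gau2

/-!
# P231, stage 3, [S3-B] (B4): the form `τ` is `t₂` plus the differential of a (non basic) natural form
-/

set_option linter.unusedSectionVars false
set_option linter.unusedVariables false

open MeasureTheory Set Module Filter Topology
open scoped ContDiff Real

namespace Vale.Agent.P231.S3B4

open Vale.Agent.P231.Fm Vale.Agent.P231.W Vale.Agent.P231.H584 Vale.Agent.P231.S3L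

section Def

variable {X : Type*} {D : Dif X}

/-- the gauge form -/
noncomputable def gg (A C : ℝ) (Φ : X × ℝ → X) (hΦ : (D.prod (Dif.lin ℝ)).Map D Φ) (T : ℝ)
    (α G : Form D) : Form D :=
  A • ((T⁻¹ • α) * ((T⁻¹ • α.d) ^ 6 * (Gh Φ hΦ T G * xp Φ hΦ T G))) +
    C • ((T⁻¹ • α) * ((T⁻¹ • α.d) ^ 10 * xp Φ hΦ T G))

theorem gg_def (A C : ℝ) (Φ : X × ℝ → X) (hΦ : (D.prod (Dif.lin ℝ)).Map D Φ) (T : ℝ)
    (α G : Form D) : gg A C Φ hΦ T α G =
      A • ((T⁻¹ • α) * ((T⁻¹ • α.d) ^ 6 * (Gh Φ hΦ T G * xp Φ hΦ T G))) +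
    C • ((T⁻¹ • α) * ((T⁻¹ • α.d) ^ 10 * xp Φ hΦ T G)) := rfl

theorem gg_van (A C : ℝ) {Φ : X × ℝ → X} {hΦ : (D.prod (Dif.lin ℝ)).Map D Φ} {T : ℝ}
    {α G : Form D} {Z : Set X} (h : Van Z (xp Φ hΦ T G)) : Van Z (gg A C Φ hΦ T α G) := by
  rw [gg_def]
  exact Van.add (Van.smul _ (Van.mul_left _ (Van.mul_left _ (Van.mul_left _ h))))
    (Van.smul _ (Van.mul_left _ (Van.mul_left _ h)))

end Def

section Gauge

variable {X : Type*} {D : Dif X} {T : ℝ} {Φ : X × ℝ → X} (h : IsFlow D T Φ) {α G : Form D}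

/-- **`τ = t₂ + d gg`** -/
theorem tau_gg (A C : ℝ) (hT : T ≠ 0) (hα : Form.pull Φ h.map α = pr α + dt) (hαo : α.sg = -α)
    (hGe : G.sg = G) (hG : G.d = 0) :
    tau A C Φ h.map T α G = t2 2 Φ h.map T G + (gg A C Φ h.map T α G).d := by
  have hθ : (T⁻¹ • α).d = T⁻¹ • α.d := Form.d_smul _ _
  have hed : (T⁻¹ • α.d).d = 0 := eT_d h hα hαo
  have hxp : (xp Φ h.map T G).d = 0 := xp_d h hG
  have hGh : (Gh Φ h.map T G).d = 0 := Gh_d h hG
  have hθo : (T⁻¹ • α).sg = -(T⁻¹ • α) := by rw [Form.sg_smul, hαo, smul_neg]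
  have hxo := xp_sg h (T := T) hGe
  have key : Gh Φ h.map T G * xp Φ h.map T G = xc Φ h.map T α G * xp Φ h.map T G := by
    rw [Gh_eq h hT hα hαo hG, add_mul, mul_assoc, odd_mul_self hxo, mul_zero, add_zero]
  have hd : ∀ (k : ℕ) (w : Form D), w.d = 0 →
      ((T⁻¹ • α) * ((T⁻¹ • α.d) ^ k * w)).d = (T⁻¹ • α.d) ^ (k + 1) * w := fun k w hw => by
    have h1 : ((T⁻¹ • α.d) ^ k * w).d = 0 := by
      rw [Form.d_mul, pow_closed hed, zero_mul, hw, mul_zero, add_zero]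
    rw [Form.d_mul, h1, mul_zero, add_zero, hθ, ← mul_assoc, ← pow_succ']
  have h2 : (Gh Φ h.map T G * xp Φ h.map T G).d = 0 := by
    rw [Form.d_mul, hGh, hxp, zero_mul, mul_zero, add_zero]
  rw [tau_def, gg_def, Form.d_add, Form.d_smul, Form.d_smul, hd 6 _ h2, hd 10 _ hxp, key,
    plin_def, add_mul, smul_mul_assoc, smul_mul_assoc, mul_assoc]

end Gauge

section Nat

variable {X Y : Type*} {D : Dif X} {D' : Dif Y} {φ : X × ℝ → X} {φ' : Y × ℝ → Y}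
    (hφ : (D.prod (Dif.lin ℝ)).Map D φ) (hφ' : (D'.prod (Dif.lin ℝ)).Map D' φ') {f : X → Y}
    (hf : D.Map D' f) (hc : ∀ x t, f (φ (x, t)) = φ' (f x, t))
include hc

theorem pull_gg (A C T : ℝ) (α G : Form D') :
    Form.pull f hf (gg A C φ' hφ' T α G) =
      gg A C φ hφ T (Form.pull f hf α) (Form.pull f hf G) := by
  have h1 := pull_Gh hφ hφ' hf hc T G
  have h2 := pull_xp hφ hφ' hf hc T G
  rw [gg_def, gg_def, H584.pull_add, H584.pull_smul, H584.pull_smul, H584.pull_mul,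
    H584.pull_mul, H584.pull_mul, H584.pull_mul, H584.pull_mul, H584.pull_pow, H584.pull_pow,
    h1, h2, H584.pull_smul, H584.pull_smul, Form.pull_d]

end Nat

end Vale.Agent.P231.S3B4
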