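import Vale.Agent.P231.S3B4.Frm
import Vale.Agent.P231.S3B4.FaT

/-!
# P231, stage 3, [S3-B] (B4): the plot of the ball bundle given by frames
-/

set_option maxSynthPendingDepth 3
set_option linter.unusedSectionVars false
set_option linter.unusedVariables false

open Bundle Manifold Set Filter Module MeasureTheory Metric
open scoped ContDiff Manifold Topology ENNReal

namespace Vale.Agent.P231.S3B4

noncomputable section

open Vale.Agent.P234 Vale.Agent.P231 Vale.Agent.P231.Fm Vale.Agent.P231.W Vale.Agent.P231.WR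
open Vale.Agent.P231.H766 Vale.Agent.P231.S2N Vale.Agent.P231.S3S Vale.Agent.P231.XC
open Vale.Agent.P231.S3Y Vale.Agent.P231.H584 Vale.Agent.P231.S3B4c Vale.Agent.P231.S2II

section Sub

variable {X Y : Type*} {D : Dif X} {D' : Dif Y} {f : X → Y} {m : ℕ}

open Classical in
/-- thinness for the subspace diffeology -/
theorem thin_sub (h : TH.Thin D D' f m) {S W : Set Y} (hW : TH.Opn D' W) (hWS : W ⊆ S)
    {g : X → S} (hg : ∀ {V : Type} [NormedAddCommGroup V] [NormedSpace ℝ V]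
      [FiniteDimensional ℝ V] {u : V → X} {x : V}, D.At u x → f (u x) ∈ W ∧
        ∀ᶠ y in 𝓝 x, (g (u y) : Y) = f (u y)) : TH.Thin D (D'.sub S) g m := by
  refine ⟨fun {V} _ _ _ {u x} hu => ?_⟩
  obtain ⟨F, i1, i2, i3, v, g', hF, hg', hv, he⟩ := h.fac hu
  obtain ⟨k1, k2⟩ := hg hu
  have e0 : f (u x) = v (g' x) := he.self_of_nhds
  let v' : F → S := fun y => if hy : v y ∈ S then ⟨v y, hy⟩ else g (u x)
  have hv1 : ∀ᶠ y in 𝓝 (g' x), v y ∈ W := hW.ev hv (e0 ▸ k1)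
  have hv2 : ∀ᶠ y in 𝓝 (g' x), (v' y : Y) = v y := by
    filter_upwards [hv1] with y hy
    have h5 : v' y = ⟨v y, hWS hy⟩ := dif_pos (hWS hy)
    rw [h5]
  refine ⟨F, i1, i2, i3, v', g', hF, hg', ?_, ?_⟩
  · exact D'.congr hv (hv2.mono fun y hy => hy.symm)
  · have hc : ContinuousAt g' x := hg'.continuousAt
    filter_upwards [he, k2, hc.eventually hv2] with y h1 h2 h3
    refine Subtype.ext ?_
    change (g (u y) : Y) = (v' (g' y) : Y)
    rw [h2, h3]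
    exact h1

end Sub

variable {E : Type*} [NormedAddCommGroup E] [NormedSpace ℝ E]
  {M : Type*} [MetricSpace M] [ChartedSpace E M]
  [RiemannianBundle (fun x : M => TangentSpace 𝓘(ℝ, E) x)]
  {e : ∀ x : M, TangentSpace 𝓘(ℝ, E) x → M}
  [FiniteDimensional ℝ E] [IsManifold 𝓘(ℝ, E) ∞ M]
  [IsContMDiffRiemannianBundle 𝓘(ℝ, E) ∞ E (fun x : M => TangentSpace 𝓘(ℝ, E) x)]
  [CompactSpace M] [ConnectedSpace M] [IsRiemannianManifold 𝓘(ℝ, E) M]

variable {D : ℝ} {ι : Type} [Fintype ι] [DecidableEq ι]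

variable {F : Facts e} {hD : 0 < D} {hB : InjGE e D} {hdiam : ∀ p q : M, dist p q ≤ D}
  {l : ℕ} {X δ : ι → UT E M → E} {ε : ℝ}

variable {Z : Type} [NormedAddCommGroup Z] [NormedSpace ℝ Z] [FiniteDimensional ℝ Z]
variable {G₁ : Z → UT E M} {f : Fin l → Z → EuclideanSpace ℝ ι}

/-- the zero vector -/
def z0T (v : UT E M) : TY F D X δ ε := ⟨v, 0, 0, 0, map_zero _, map_zero _, map_zero _⟩

theorem z0T_mem (v : UT E M) {R : ℝ} (hR : 0 ≤ R) : (z0T v : TY F D X δ ε) ∈ BT F D X δ ε R := by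
  constructor
  · change ‖(0 : EuclideanSpace ℝ ι)‖ ≤ R
    rwa [norm_zero]
  · change ‖(0 : EuclideanSpace ℝ ι)‖ ≤ R
    rwa [norm_zero]

open Classical in
/-- the plot of the ball bundle -/
def kB (h : Vec F D X δ ε G₁ f) {R : ℝ} (hR : 0 ≤ R) (p : Cd Z l) : BT F D X δ ε R :=
  if hp : kp h p ∈ BT F D X δ ε R then ⟨kp h p, hp⟩ else ⟨z0T (G₁ p.1), z0T_mem _ hR⟩

theorem kB_eq (h : Vec F D X δ ε G₁ f) {R : ℝ} (hR : 0 ≤ R) {p : Cd Z l}
    (hp : kp h p ∈ BT F D X δ ε R) : (kB h hR p : TY F D X δ ε) = kp h p := by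
  rw [kB, dif_pos hp]

/-- the open ball bundle -/
def BTo (F : Facts e) (D : ℝ) (X δ : ι → UT E M → E) (ε R : ℝ) : Set (TY F D X δ ε) :=
  {p | ‖p.x‖ < R ∧ ‖p.y‖ < R}

theorem opn_BTo (R : ℝ) : TH.Opn (dTY F D X δ ε) (BTo F D X δ ε R) := by
  refine ⟨fun {V} _ _ _ {u x} hu hx => ?_⟩
  obtain ⟨-, -, h3, h4⟩ := at_TY.1 hu
  filter_upwards [h3.continuousAt.norm.eventually_lt_const hx.1,
    h4.continuousAt.norm.eventually_lt_const hx.2] with y h1 h2
  exact ⟨h1, h2⟩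

theorem BTo_sub (R : ℝ) : BTo F D X δ ε R ⊆ BT F D X δ ε R := fun _ h => ⟨h.1.le, h.2.le⟩

theorem mem_BTo (h : Vec F D X δ ε G₁ f) (ho : ∀ x, Orthonormal ℝ fun i => f i x) {R : ℝ}
    {p : Cd Z l} (hp : p ∈ U1 nwE R) : kp h p ∈ BTo F D X δ ε R := by
  have h1 : nwE p.2.2 < R := hp
  have h2 := norm_le_nwE p.2.2
  constructor
  · rw [kp_x, norm_cmbE (ho _)]
    exact ((norm_fst_le p.2.2).trans h2).trans_lt h1
  · rw [kp_y, norm_cmbE (ho _)]
    exact ((norm_snd_le p.2.2).trans h2).trans_lt h1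

theorem kB_U1 (h : Vec F D X δ ε G₁ f) (ho : ∀ x, Orthonormal ℝ fun i => f i x) {R : ℝ}
    (hR : 0 ≤ R) {p : Cd Z l} (hp : p ∈ U1 nwE R) : (kB h hR p : TY F D X δ ε) = kp h p :=
  kB_eq h hR (BTo_sub R (mem_BTo h ho hp))

theorem map_kB (h : Vec F D X δ ε G₁ f) (ho : ∀ x, Orthonormal ℝ fun i => f i x) {R : ℝ}
    (hR : 0 ≤ R) : ((Dif.lin (Cd Z l)).on (U1 nwE R)).Map ((dTY F D X δ ε).sub
      (BT F D X δ ε R)) (kB h hR) := by
  intro E' _ _ _ u x hu
  have h1 : (dTY F D X δ ε).At (fun y => kp h (u y)) x := map_kp h hu.1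
  refine (dTY F D X δ ε).congr h1 ?_
  filter_upwards [hu.2] with y hy
  exact (kB_U1 h ho hR hy).symm

variable {v₀ : UT E M}

/-- **the plot of the ball bundle, with core in `{‖w‖² ≤ s₀}`** -/
theorem plt_kB (hF : S2N.Fam F hD hB hdiam l X δ ε) (h : Vec F D X δ ε G₁ f)
    (ho : ∀ x, Orthonormal ℝ fun i => f i x) (hout : ∀ x, 1 < ‖x‖ → G₁ x = v₀) (hl : 3 * l ≤ 27)
    {R : ℝ} (hR : 0 ≤ R) {U : Set (Cd Z l)} (hU : IsOpen U) (hUR : U ⊆ U1 nwE R) (s₀ : ℝ) :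
    Plt U (U ∩ {p | s₀ < nsq (kp h p)}) BZ ((dTY F D X δ ε).sub (BT F D X δ ε R))
      {p | s₀ < nsq p.1} (kB h hR) where
  opU := hU
  opO := by
    refine hU.inter ?_
    have h1 : Continuous fun p : Cd Z l => nsq (kp h p) := by
      have h2 : (fun p : Cd Z l => nsq (kp h p)) = fun p => ‖p.2.1‖ ^ 2 + nwE p.2.2 ^ 2 :=
        funext fun p => nsq_kp h ho p
      rw [h2]
      exact (continuous_fst.comp continuous_snd).norm.pow 2 |>.add
        ((smN_nwE.cont.comp (continuous_snd.comp continuous_snd)).pow 2)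
    exact isOpen_lt continuous_const h1
  sub := inter_subset_left
  clB := closed_BZ
  map := fun {E} _ _ _ {u x} hu => map_kB h ho hR ⟨hu.1, hu.2.mono fun y hy => hUR hy⟩
  mem x hx := by
    change s₀ < nsq (kB h hR x : TY F D X δ ε)
    rw [kB_U1 h ho hR (hUR hx.1)]
    exact hx.2
  thin := by
    have h1 : TH.Thin ((Dif.lin (Cd Z l)).on (U ∩ BZᶜ)) (dTY F D X δ ε) (kp h) (3 * l) :=
      (thin_kp hF h hout).subset fun p hp => by
        by_contra h2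
        have h3 : ‖p.1‖ ≤ 1 := not_lt.1 h2
        exact hp.2 h3
    refine (thin_sub h1 (opn_BTo R) (BTo_sub R) fun {V} _ _ _ {u x} hu => ⟨?_, ?_⟩).mono hl
    · exact mem_BTo h ho (hUR hu.2.self_of_nhds.1)
    · filter_upwards [hu.2] with y hy
      exact kB_U1 h ho hR (hUR hy.1)

/-- the cut-off functions of a disc -/
theorem exists_cut_kB (h : Vec F D X δ ε G₁ f) (ho : ∀ x, Orthonormal ℝ fun i => f i x)
    {U : Set (Cd Z l)} (hU : IsOpen U) {s₀ : ℝ} (hs : ∀ p : Cd Z l, ‖p.1‖ ≤ 1 →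
      nsq (kp h p) ≤ s₀ → p ∈ U) :
    ∃ χ : Cd Z l → ℝ, Cut U (U ∩ {p | s₀ < nsq (kp h p)}) BZ χ := by
  let C : Set (Cd Z l) := {p | ‖p.1‖ ≤ 1 ∧ nsq (kp h p) ≤ s₀}
  have h1 : Continuous fun p : Cd Z l => nsq (kp h p) := by
    have h2 : (fun p : Cd Z l => nsq (kp h p)) = fun p => ‖p.2.1‖ ^ 2 + nwE p.2.2 ^ 2 :=
      funext fun p => nsq_kp h ho p
    rw [h2]
    exact (continuous_fst.comp continuous_snd).norm.pow 2 |>.add
      ((smN_nwE.cont.comp (continuous_snd.comp continuous_snd)).pow 2)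
  have hC : IsCompact C := by
    have h3 : IsClosed C := (isClosed_le continuous_fst.norm continuous_const).inter
      (isClosed_le h1 continuous_const)
    refine (((isCompact_closedBall (0 : Z) 1).prod ((isCompact_closedBall (0 : Eul l)
      (Real.sqrt s₀)).prod (smN_nwE.cpt (Real.sqrt s₀)))).of_isClosed_subset h3 ?_)
    rintro p ⟨hp1, hp2⟩
    rw [nsq_kp h ho] at hp2
    refine ⟨mem_closedBall_zero_iff.2 hp1, mem_closedBall_zero_iff.2 ?_, ?_⟩
    · exact Real.le_sqrt_of_sq_le (by nlinarith [sq_nonneg (nwE p.2.2)])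
    · exact Real.le_sqrt_of_sq_le (by nlinarith [sq_nonneg ‖p.2.1‖])
  obtain ⟨t, ht, k1, k2⟩ := exists_compact_between hC hU fun p hp => hs p hp.1 hp.2
  obtain ⟨g, hg, hg0, -⟩ := exists_contMDiffMap_one_nhds_of_subset_interior 𝓘(ℝ, Cd Z l)
    (n := (⊤ : ℕ∞)) hC.isClosed k1
  refine ⟨g, g.contMDiff.contDiff, HasCompactSupport.intro ht fun x hx => hg0 x hx, ?_, ?_⟩
  · refine (closure_minimal (fun x hx => ?_) ht.isClosed).trans k2
    by_contra h3
    exact hx (hg0 x h3)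
  · intro x hxU hx
    have h3 : x ∈ C := by
      refine ⟨?_, ?_⟩
      · by_contra h4
        exact hx (Or.inr ⟨hxU, h4⟩)
      · by_contra h4
        exact hx (Or.inl ⟨hxU, not_le.1 h4⟩)
    exact hg.filter_mono (nhds_le_nhdsSet h3)

end

end Vale.Agent.P231.S3B4
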