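import Vale.Agent.P231.S3B4.Pk
import Vale.Agent.P231.TH.Thin
import Vale.Agent.P231.H584.Quad

/-!
# P231, stage 3, [S3-B] (B4): the space of all loops; local data
-/

set_option linter.unusedSectionVars false
set_option linter.unusedVariables false

open MeasureTheory Set Module Filter Topology
open scoped ContDiff Real ENNReal

namespace Vale.Agent.P231.S3B4

open Vale.Agent.P231.Fm Vale.Agent.P231.W Vale.Agent.P231.H584 Vale.Agent.P231.S3L
  Vale.Agent.P231.H766 Vale.Agent.P231.TW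
open Vale.Agent.P231.Fm.Form (IsDeg)

/-! ### degrees -/

section Deg

variable {X : Type*} {D : Dif X}

theorem isDeg_dt : IsDeg 1 (dt (D := D)) :=
  (Form.isDeg_fn (Prod.snd : X × ℝ → ℝ) (Dif.map_snd (D := D) (D' := Dif.lin ℝ))).d

theorem isDeg_Pm {k : ℕ} {w : Form (D.prod (Dif.lin ℝ))} (hw : IsDeg (k + 1) w) :
    IsDeg k (Pm w) := by
  rw [Pm]
  exact IsDeg.K (IsDeg.pull hw _ _)

theorem isDeg_KT {k : ℕ} (c : ℝ) {w : Form (D.prod (Dif.lin ℝ))} (hw : IsDeg (k + 1) w) :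
    IsDeg k (KT c w) := by
  rw [KT]
  exact IsDeg.K (IsDeg.pull hw _ _)

theorem isDeg_lam {k : ℕ} {Φ : X × ℝ → X} (hΦ : (D.prod (Dif.lin ℝ)).Map D Φ) (T : ℝ) {G : Form D}
    (hG : IsDeg (k + 1) G) : IsDeg k (lam Φ hΦ T G) := by
  rw [lam_def]
  refine IsDeg.neg (IsDeg.smul _ (isDeg_KT T ?_))
  have h1 := isDeg_dt.mul (isDeg_Pm (IsDeg.pull hG Φ hΦ))
  rwa [add_comm] at h1

theorem isDeg_Gh {k : ℕ} {Φ : X × ℝ → X} (hΦ : (D.prod (Dif.lin ℝ)).Map D Φ) (T : ℝ) {G : Form D}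
    (hG : IsDeg (k + 1) G) : IsDeg (k + 1) (Gh Φ hΦ T G) := by
  rw [Gh_def]
  exact hG.sub (isDeg_lam hΦ T hG).d

theorem isDeg_hh {k : ℕ} {a b : Form D} (ha : IsDeg k a) (hb : IsDeg k b) (n : ℕ) :
    IsDeg (k * n) (W.hh n a b) := by
  induction n with
  | zero =>
    rw [H584.hh_zero, mul_zero]
    exact IsDeg.one
  | succ n ih =>
    rw [H584.hh_succ]
    refine IsDeg.add ?_ (hb.pow _)
    have h1 := ha.mul ih
    rwa [show k + k * n = k * (n + 1) by ring] at h1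

theorem isDeg_xp {k : ℕ} {Φ : X × ℝ → X} (hΦ : (D.prod (Dif.lin ℝ)).Map D Φ) (T : ℝ) {G : Form D}
    (hG : IsDeg (k + 1) G) : IsDeg k (xp Φ hΦ T G) := isDeg_J hΦ T hG

theorem isDeg_y0 {k : ℕ} (n : ℕ) {Φ : X × ℝ → X} (hΦ : (D.prod (Dif.lin ℝ)).Map D Φ) (T : ℝ)
    {G : Form D} (hG : IsDeg (k + 1) G) : IsDeg (k + (k + 1) * n) (y0 n Φ hΦ T G) := by
  rw [y0_def]
  exact ((isDeg_lam hΦ T hG).mul (isDeg_hh hG (isDeg_Gh hΦ T hG) n)).neg

/-- **the degree of `t₂`** -/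
theorem isDeg_t2 {Φ : X × ℝ → X} (hΦ : (D.prod (Dif.lin ℝ)).Map D Φ) (T : ℝ)
    {G : Form D} (hG : IsDeg 8 G) : IsDeg 29 (t2 2 Φ hΦ T G) := by
  rw [t2_def]
  exact (isDeg_xp hΦ T hG).mul (isDeg_J hΦ T (k := 22) (isDeg_y0 2 hΦ T hG))

end Deg

/-! ### the space of all loops -/

section Lp

variable {M : Type*} {DM : Dif M}

/-- the diffeology of the space of curves -/
def dLp (DM : Dif M) : Dif (ℝ → M) where
  At {E} _ _ _ u x := ∀ᶠ y in 𝓝 x, ∀ t : ℝ, DM.At (fun p : E × ℝ => u p.1 p.2) (y, t)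
  open' h := eventually_eventually_nhds.2 h
  congr {E} _ _ _ u v x h hv := by
    filter_upwards [h, hv.eventuallyEq_nhds] with y h1 h2 t
    refine DM.congr (h1 t) ?_
    have h3 : ∀ᶠ p : E × ℝ in 𝓝 (y, t), u p.1 = v p.1 :=
      (continuous_fst.tendsto (y, t)).eventually h2
    filter_upwards [h3] with p hp
    rw [hp]
  comp {E F} _ _ _ _ _ _ u g x h hg := by
    filter_upwards [hg.eventually, hg.continuousAt.eventually h] with y h1 h2 t
    have h3 : Sm (fun p : E × ℝ => (g p.1, p.2)) (y, t) :=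
      (h1.comp (f := g) (Sm.of_contDiff contDiff_fst (y, t))).prodMk
        (Sm.of_contDiff contDiff_snd (y, t))
    exact DM.comp (u := fun p : F × ℝ => u p.1 p.2) (g := fun p : E × ℝ => (g p.1, p.2))
      (x := (y, t)) (h2 t) h3

/-- the evaluation -/
theorem map_evp : ((dLp DM).prod (Dif.lin ℝ)).Map DM (fun p : (ℝ → M) × ℝ => p.1 p.2) := by
  intro E _ _ _ u x hu
  have h1 : (dLp DM).At (fun y => (u y).1) x := hu.1
  exact DM.comp (u := fun p : E × ℝ => (u p.1).1 p.2) (g := fun y => (y, (u y).2))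
    (h1.self_of_nhds _) ((Sm.of_contDiff contDiff_id x).prodMk hu.2)

variable {X : Type*} {D : Dif X}

theorem map_uncurry {c : X → ℝ → M} (hc : D.Map (dLp DM) c) :
    (D.prod (Dif.lin ℝ)).Map DM (fun p => c p.1 p.2) := by
  intro E _ _ _ u x hu
  exact map_evp (u := fun y => (c (u y).1, (u y).2)) ⟨hc hu.1, hu.2⟩

theorem map_curry {c : X → ℝ → M} (hc : (D.prod (Dif.lin ℝ)).Map DM (fun p => c p.1 p.2)) :
    D.Map (dLp DM) c := by
  intro E _ _ _ u x hu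
  have h1 : ∀ᶠ y in 𝓝 x, D.At u y := D.open' hu
  filter_upwards [h1] with y hy t
  exact hc (u := fun p : E × ℝ => (u p.1, p.2)) ⟨D.comp (u := u) (g := fun p : E × ℝ => p.1)
    (x := (y, t)) hy (Sm.of_contDiff contDiff_fst _), Sm.of_contDiff contDiff_snd _⟩

/-- the universal form `t₂` -/
noncomputable def t2P (F : Form DM) : Form (dLp DM) :=
  T2n (fun p : (ℝ → M) × ℝ => p.1 p.2) map_evp F

theorem pull_t2P {c : X → ℝ → M} (hc : D.Map (dLp DM) c) (F : Form DM) :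
    Form.pull c hc (t2P F) = T2n (fun p => c p.1 p.2) (map_uncurry hc) F :=
  pull_T2n hc map_evp (map_uncurry hc) (fun _ _ => rfl) F

theorem isDeg_t2P {F : Form DM} (hF : IsDeg 8 F) : IsDeg 29 (t2P F) := by
  rw [t2P, T2n_def, at_]
  exact IsDeg.pull (isDeg_t2 _ _ (IsDeg.pull hF _ _)) _ _

end Lp

end Vale.Agent.P231.S3B4
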