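import Vale.Agent.P231.S3B4.Stk
import Vale.Agent.P231.S3B4.T2
import Vale.Agent.P231.Co.On

/-!
# P231, stage 3, [S3-B] (B4): relative classes of forms and of families of loops
-/

set_option linter.unusedSectionVars false
set_option linter.unusedVariables false

open MeasureTheory Set Module Filter Topology
open scoped ContDiff Real ENNReal

namespace Vale.Agent.P231.S3B4

open Vale.Agent.P231.Fm Vale.Agent.P231.W Vale.Agent.P231.H584 Vale.Agent.P231.S3L
  Vale.Agent.P231.H766 Vale.Agent.P231.TW

variable {V : Type} [NormedAddCommGroup V] [NormedSpace ℝ V] [FiniteDimensional ℝ V]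

/-- the points of an open set are plots -/
theorem at_on {O : Set V} (hO : IsOpen O) {x : V} (hx : x ∈ O) :
    ((Dif.lin V).on O).At (id : V → V) x :=
  ⟨Sm.of_contDiff contDiff_id x, hO.mem_nhds hx⟩

theorem mem_of_at {O : Set V} {x : V} (h : ((Dif.lin V).on O).At (id : V → V) x) : x ∈ O :=
  h.2.self_of_nhds

/-- a form on `U` with a primitive on `O`; both vanish off the closed set `B` -/
structure Pk (U O B : Set V) (T : Form ((Dif.lin V).on U)) (L : Form ((Dif.lin V).on O)) :
    Prop where
  opU : IsOpen U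
  opO : IsOpen O
  sub : O ⊆ U
  clB : IsClosed B
  d : L.d = Form.pull id (Dif.map_on_mono sub) T
  vT : Van Bᶜ T
  vL : Van Bᶜ L

/-- a form which vanishes off `B` vanishes at the points off `B` -/
theorem van_val {O B : Set V} {w : Form ((Dif.lin V).on O)} (hw : Van Bᶜ w) (hB : IsClosed B)
    {x : V} (hx : x ∉ B) : w.val (id : V → V) x = 0 := by
  by_cases h : ((Dif.lin V).on O).At (id : V → V) x
  · exact hw h (hB.isOpen_compl.mem_nhds hx)
  · exact w.junk h

variable {U O B : Set V} {T : Form ((Dif.lin V).on U)} {L : Form ((Dif.lin V).on O)}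
  {χ : V → ℝ}

theorem Pk.pair (h : Pk U O B T L) : Pair U (O ∪ (U \ B)) (T.val id) (L.val id) where
  opU := h.opU
  opO := h.opO.union (h.opU.sdiff h.clB)
  sub := union_subset h.sub sdiff_subset
  smT x hx := T.smooth (at_on h.opU hx)
  sml x hx := by
    rcases hx with hx | hx
    · exact L.smooth (at_on h.opO hx)
    · refine contDiffAt_const (c := (0 : Lam V)).congr_of_eventuallyEq ?_
      filter_upwards [h.clB.isOpen_compl.mem_nhds hx.2] with y hy
      exact van_val h.vL h.clB hy
  d x hx := by
    by_cases hO : x ∈ O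
    · have h1 := at_on h.opO hO
      rw [← Form.d_val _ h1, h.d, Form.pull_val _ _ h1]
      rfl
    · have hx2 : x ∉ B := (hx.resolve_left hO).2
      have h2 : L.val (id : V → V) =ᶠ[𝓝 x] fun _ => 0 := by
        filter_upwards [h.clB.isOpen_compl.mem_nhds hx2] with y hy
        exact van_val h.vL h.clB hy
      rw [extd_congr h2, extd_const, van_val h.vT h.clB hx2]

variable [MeasurableSpace V] [BorelSpace V]

/-- **the relative number of a pair of forms** -/
noncomputable def Wf {N : ℕ} (b : Basis (Fin N) ℝ V) (χ : V → ℝ) (T : Form ((Dif.lin V).on U))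
    (L : Form ((Dif.lin V).on O)) : ℝ := Wn b χ (T.val id) (L.val id)

/-- cut-off functions for a pair -/
abbrev Cut (U O B : Set V) (χ : V → ℝ) : Prop := CutOf U (O ∪ (U \ B)) χ

theorem Wf_indep {N k : ℕ} (hN : N = k + 1) (b : Basis (Fin N) ℝ V) (h : Pk U O B T L)
    {χ χ' : V → ℝ} (hχ : Cut U O B χ) (hχ' : Cut U O B χ') : Wf b χ T L = Wf b χ' T L :=
  Wn_indep hN b h.pair hχ hχ'

/-- the value of the homotopy operator at a plot only depends on the values -/
theorem Wf_htpy {N k : ℕ} (hN : N = k + 1) (b : Basis (Fin N) ℝ V) (opU : IsOpen U)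
    (opO : IsOpen O) (sub : O ⊆ U) (clB : IsClosed B) (hχ : Cut U O B χ)
    {T : Form (((Dif.lin V).on U).prod (Dif.lin ℝ))}
    {L : Form (((Dif.lin V).on O).prod (Dif.lin ℝ))} (hT : T.d = 0)
    (hL : L.d = Form.pull (fun p : V × ℝ => (id p.1, p.2)) (map_cyl (Dif.map_on_mono sub)) T)
    (vT : Van (Bᶜ ×ˢ (Set.univ : Set ℝ)) T) (vL : Van (Bᶜ ×ˢ (Set.univ : Set ℝ)) L) :
    Pk U O B (at_ 1 T) (at_ 1 L) ∧ Pk U O B (at_ 0 T) (at_ 0 L) ∧
      Wf b χ (at_ 1 T) (at_ 1 L) = Wf b χ (at_ 0 T) (at_ 0 L) := by
  have key : ∀ c : ℝ, Pk U O B (at_ c T) (at_ c L) := fun c =>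
    { opU := opU
      opO := opO
      sub := sub
      clB := clB
      d := by
        rw [← at_d, hL, at_pull_cyl]
      vT := fun {E} _ _ _ {u x} hu hB => by
        have h1 := vT (u := (fun y => (y, c)) ∘ u) (x := x) (Form.map_slice c hu)
          (hB.mono fun y hy => ⟨hy, mem_univ _⟩)
        rw [at_, Form.pull_val _ _ hu]
        exact h1
      vL := fun {E} _ _ _ {u x} hu hB => by
        have h1 := vL (u := (fun y => (y, c)) ∘ u) (x := x) (Form.map_slice c hu)
          (hB.mono fun y hy => ⟨hy, mem_univ _⟩)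
        rw [at_, Form.pull_val _ _ hu]
        exact h1 }
  refine ⟨key 1, key 0, ?_⟩
  have e1 : at_ 1 T - at_ 0 T = (Form.K T).d := by
    have := homotopy' T
    rw [hT] at this
    have h0 : Form.K (0 : Form (((Dif.lin V).on U).prod (Dif.lin ℝ))) = 0 := by
      have := Form.K_smul (0 : ℝ) (0 : Form (((Dif.lin V).on U).prod (Dif.lin ℝ)))
      rwa [zero_smul, zero_smul] at this
    rw [h0, zero_add] at this
    exact this
  have e2 : at_ 1 L - at_ 0 L = Form.pull id (Dif.map_on_mono sub) (Form.K T) + (Form.K L).d := by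
    have := homotopy' L
    rw [hL, K_nat (Dif.map_on_mono sub)] at this
    exact this
  have vK : Van Bᶜ (Form.K T) := Van.K vT
  have vK' : Van Bᶜ (Form.K L) := Van.K vL
  refine Wn_htpy (κ := (Form.K T).val id) (m := (Form.K L).val id) hN b (key 1).pair (key 0).pair hχ
    (fun x hx => (Form.K T).smooth (at_on opU hx)) (fun x hx => ?_) (fun x hx => ?_)
    (fun x hx => ?_)
  · rcases hx with hx | hx
    · exact (Form.K L).smooth (at_on opO hx)
    · refine contDiffAt_const (c := (0 : Lam V)).congr_of_eventuallyEq ?_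
      filter_upwards [clB.isOpen_compl.mem_nhds hx.2] with y hy
      exact van_val vK' clB hy
  · rw [← Form.d_val _ (at_on opU hx), ← e1]
    rfl
  · by_cases hO : x ∈ O
    · have h1 := at_on opO hO
      have h2 := congrArg (fun w => Form.val w (id : V → V) x) e2
      simp only [Form.sub_val, Form.add_val] at h2
      rw [h2, Form.pull_val _ _ h1, Form.d_val _ h1]
      rfl
    · have hx2 : x ∉ B := (hx.resolve_left hO).2
      have h2 : (Form.K L).val (id : V → V) =ᶠ[𝓝 x] fun _ => 0 := by
        filter_upwards [clB.isOpen_compl.mem_nhds hx2] with y hy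
        exact van_val vK' clB hy
      rw [van_val (key 1).vL clB hx2, van_val (key 0).vL clB hx2, extd_congr h2, extd_const,
        van_val vK clB hx2]
      simp

end Vale.Agent.P231.S3B4
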