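import Vale.Agent.P231.S3B4.Fa

/-!
# P231, stage 3, [S3-B] (B4): the radial integral

`V = Z × (A × G)`, points `(x, (a, w))`. For a form `w` the number `II Θ w = ∫ dΘ ∧ w`,
`Θ = θ(|w|)`.
-/

set_option linter.unusedSectionVars false
set_option linter.unusedVariables false

open MeasureTheory Set Module Filter Topology Metric
open scoped ContDiff Real ENNReal

namespace Vale.Agent.P231.S3B4

open Vale.Agent.P231.Fm Vale.Agent.P231.W Vale.Agent.P231.H584 Vale.Agent.P231.S3L
  Vale.Agent.P231.H766 Vale.Agent.P231.TW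
open Vale.Agent.P231.Fm.Form (IsDeg)

theorem smul_sm {V : Type} [NormedAddCommGroup V] [NormedSpace ℝ V] [FiniteDimensional ℝ V]
    {f : V → ℝ} {w : V → Lam V} {x : V} (hf : ContDiffAt ℝ ∞ f x) (hw : ContDiffAt ℝ ∞ w x) :
    ContDiffAt ℝ ∞ (fun x => f x • w x) x := hf.smul hw

variable {Z A G : Type} [NormedAddCommGroup Z] [NormedSpace ℝ Z] [FiniteDimensional ℝ Z]
  [NormedAddCommGroup A] [NormedSpace ℝ A] [FiniteDimensional ℝ A]
  [NormedAddCommGroup G] [NormedSpace ℝ G] [FiniteDimensional ℝ G]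

/-- a smooth norm -/
structure SmN (nw : G → ℝ) : Prop where
  cont : Continuous nw
  smooth : ∀ w, w ≠ 0 → ContDiffAt ℝ ∞ nw w
  hom : ∀ c : ℝ, 0 ≤ c → ∀ w, nw (c • w) = c * nw w
  pos : ∀ w, w ≠ 0 → 0 < nw w
  cpt : ∀ R, IsCompact {w | nw w ≤ R}

theorem SmN.zero {nw : G → ℝ} (h : SmN nw) : nw 0 = 0 := by
  have := h.hom 0 le_rfl 0
  rwa [zero_smul, zero_mul] at this

theorem SmN.nonneg {nw : G → ℝ} (h : SmN nw) (w : G) : 0 ≤ nw w := by
  by_cases hw : w = 0
  · rw [hw, h.zero]
  · exact (h.pos w hw).le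

theorem SmN.ne {nw : G → ℝ} (h : SmN nw) {w : G} (hw : 0 < nw w) : w ≠ 0 := by
  rintro rfl
  rw [h.zero] at hw
  exact lt_irrefl _ hw

/-- a radial cut-off -/
structure RC (θ : ℝ → ℝ) (r r' : ℝ) : Prop where
  smooth : ContDiff ℝ ∞ θ
  pos : 0 < r
  one : ∀ t, t ≤ r → θ t = 1
  zero : ∀ t, r' ≤ t → θ t = 0

variable {nw : G → ℝ} {θ : ℝ → ℝ} {r r' : ℝ}

/-- the cut-off function -/
def Th (θ : ℝ → ℝ) (nw : G → ℝ) (p : Z × (A × G)) : ℝ := θ (nw p.2.2)

theorem continuous_nw (hn : SmN nw) : Continuous fun p : Z × (A × G) => nw p.2.2 :=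
  hn.cont.comp (continuous_snd.comp continuous_snd)

theorem Th_near_one (hn : SmN nw) (hθ : RC θ r r') {p : Z × (A × G)} (hp : nw p.2.2 < r) :
    ∀ᶠ q in 𝓝 p, Th θ nw q = 1 := by
  filter_upwards [(continuous_nw hn).continuousAt.eventually_lt_const hp] with q hq
  exact hθ.one _ hq.le

theorem Th_near_zero (hn : SmN nw) (hθ : RC θ r r') {p : Z × (A × G)} (hp : r' < nw p.2.2) :
    ∀ᶠ q in 𝓝 p, Th θ nw q = 0 := by
  filter_upwards [(continuous_nw hn).continuousAt.eventually_const_lt hp] with q hq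
  exact hθ.zero _ hq.le

theorem contDiff_Th (hn : SmN nw) (hθ : RC θ r r') :
    ContDiff ℝ ∞ (Th θ nw : Z × (A × G) → ℝ) := by
  refine contDiff_iff_contDiffAt.2 fun p => ?_
  by_cases hp : p.2.2 = 0
  · have h1 : nw p.2.2 < r := by rw [hp, hn.zero]; exact hθ.pos
    exact contDiffAt_const.congr_of_eventuallyEq (Th_near_one hn hθ h1)
  · have h1 : ContDiffAt ℝ ∞ (fun p : Z × (A × G) => nw p.2.2) p :=
      (hn.smooth _ hp).comp p (contDiffAt_snd.snd)
    exact hθ.smooth.contDiffAt.comp p h1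

theorem fderiv_Th (hn : SmN nw) (hθ : RC θ r r') {p : Z × (A × G)}
    (hp : nw p.2.2 < r ∨ r' < nw p.2.2) : fderiv ℝ (Th θ nw : Z × (A × G) → ℝ) p = 0 := by
  rcases hp with hp | hp
  · exact fderiv_of_eventually_const (Th_near_one hn hθ hp)
  · exact fderiv_of_eventually_const (Th_near_zero hn hθ hp)

/-- the region where forms are supposed to vanish -/
def N1 : Set (Z × (A × G)) := {p | 1 < ‖p.1‖ ∨ 1 < ‖p.2.1‖}

theorem closed_N1 : IsClosed (N1ᶜ : Set (Z × (A × G))) := by
  have h1 : IsOpen (N1 : Set (Z × (A × G))) :=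
    (isOpen_lt continuous_const continuous_fst.norm).union
      (isOpen_lt continuous_const (continuous_fst.comp continuous_snd).norm)
  exact h1.isClosed_compl

/-- the compact cylinder -/
def Kc (nw : G → ℝ) (R : ℝ) : Set (Z × (A × G)) :=
  closedBall 0 1 ×ˢ (closedBall 0 1 ×ˢ {w | nw w ≤ R})

theorem isCompact_Kc (hn : SmN nw) (R : ℝ) : IsCompact (Kc nw R : Set (Z × (A × G))) :=
  (isCompact_closedBall _ _).prod ((isCompact_closedBall _ _).prod (hn.cpt R))

theorem not_mem_Kc {R : ℝ} {p : Z × (A × G)} (hp : p ∉ Kc nw R) : p ∈ N1 ∨ R < nw p.2.2 := by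
  by_contra h
  push Not at h
  apply hp
  have h1 : ¬ (1 < ‖p.1‖ ∨ 1 < ‖p.2.1‖) := h.1
  push Not at h1
  exact ⟨mem_closedBall_zero_iff.2 h1.1, mem_closedBall_zero_iff.2 h1.2, h.2⟩

variable [MeasurableSpace Z] [BorelSpace Z] [MeasurableSpace A] [BorelSpace A]
  [MeasurableSpace G] [BorelSpace G]

variable {W : Set (Z × (A × G))}

/-- the radial integral -/
noncomputable def II {N : ℕ} (b : Basis (Fin N) ℝ (Z × (A × G))) (θ : ℝ → ℝ) (nw : G → ℝ)
    (w : Form ((Dif.lin (Z × (A × G))).on W)) : ℝ :=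
  JJ b fun p => dx (fderiv ℝ (Th θ nw) p) * w.val id p

/-- the cylinder is contained in `W` -/
def Cyl (W : Set (Z × (A × G))) (nw : G → ℝ) (r r' : ℝ) : Prop :=
  ∀ p : Z × (A × G), r ≤ nw p.2.2 → nw p.2.2 ≤ r' → p ∈ W

section Props

variable {N k : ℕ} (hN : N = k + 1) (b : Basis (Fin N) ℝ (Z × (A × G))) (hn : SmN nw)
  (hθ : RC θ r r') (hW : IsOpen W) (hC : Cyl W nw r r')

include hn hθ hC hW in
theorem II_smooth {m : Form ((Dif.lin (Z × (A × G))).on W)} (p : Z × (A × G)) :
    ContDiffAt ℝ ∞ (fun p => dx (fderiv ℝ (Th θ nw) p) * m.val id p) p := by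
  by_cases hp : r ≤ nw p.2.2 ∧ nw p.2.2 ≤ r'
  · exact (smAt_dx (contDiff_Th hn hθ) p).mul (m.smooth (at_on hW (hC p hp.1 hp.2)))
  · have h1 : nw p.2.2 < r ∨ r' < nw p.2.2 := by
      by_contra h
      push Not at h
      exact hp h
    refine contDiffAt_const (c := (0 : Lam (Z × (A × G)))).congr_of_eventuallyEq ?_
    have h2 : ∀ᶠ q in 𝓝 p, nw q.2.2 < r ∨ r' < nw q.2.2 := by
      rcases h1 with h1 | h1
      · exact ((continuous_nw hn).continuousAt.eventually_lt_const h1).mono fun q hq => Or.inl hq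
      · exact ((continuous_nw hn).continuousAt.eventually_const_lt h1).mono fun q hq => Or.inr hq
    filter_upwards [h2] with q hq
    rw [fderiv_Th hn hθ hq, map_zero, zero_mul]

include hn hθ in
theorem II_out {m : Form ((Dif.lin (Z × (A × G))).on W)} (hm : Van N1 m) {p : Z × (A × G)}
    (hp : p ∉ Kc nw r') : dx (fderiv ℝ (Th θ nw) p) * m.val id p = 0 := by
  rcases not_mem_Kc hp with h | h
  · have hm' : Van (N1ᶜᶜ) m := by rw [compl_compl]; exact hm
    rw [van_val hm' closed_N1 (fun h2 => h2 h), mul_zero]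
  · rw [fderiv_Th hn hθ (Or.inr h), map_zero, zero_mul]

include hN hn hθ hW hC in
/-- exact forms -/
theorem II_d {m : Form ((Dif.lin (Z × (A × G))).on W)} (hm : Van N1 m) : II b θ nw m.d = 0 := by
  have h1 := JJ_d hN b (II_smooth hn hθ hW hC (m := m)) (isCompact_Kc hn r')
    fun p hp => II_out hn hθ hm hp
  have h2 : ∀ p, extd (fun p => dx (fderiv ℝ (Th θ nw) p) * m.val id p) p =
      (-1 : ℝ) • (dx (fderiv ℝ (Th θ nw) p) * m.d.val id p) := fun p => by
    by_cases hp : r ≤ nw p.2.2 ∧ nw p.2.2 ≤ r'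
    · have hat := at_on hW (hC p hp.1 hp.2)
      rw [extd_mul ((smAt_dx (contDiff_Th hn hθ) p).differentiableAt (by simp))
        (m.differentiableAt hat), extd_dx_fderiv (contDiff_Th hn hθ) p, zero_mul, zero_add,
        inv_dx, Form.d_val _ hat, neg_mul, neg_one_smul]
    · have h1 : nw p.2.2 < r ∨ r' < nw p.2.2 := by
        by_contra h
        push Not at h
        exact hp h
      have h2 : ∀ᶠ q in 𝓝 p, nw q.2.2 < r ∨ r' < nw q.2.2 := by
        rcases h1 with h1 | h1
        · exact ((continuous_nw hn).continuousAt.eventually_lt_const h1).mono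
            fun q hq => Or.inl hq
        · exact ((continuous_nw hn).continuousAt.eventually_const_lt h1).mono
            fun q hq => Or.inr hq
      have h3 : (fun p => dx (fderiv ℝ (Th θ nw) p) * m.val id p) =ᶠ[𝓝 p] fun _ => 0 := by
        filter_upwards [h2] with q hq
        rw [fderiv_Th hn hθ hq, map_zero, zero_mul]
      rw [extd_congr h3, extd_const, fderiv_Th hn hθ h1, map_zero, zero_mul, smul_zero]
  rw [JJ_congr b h2] at h1
  unfold JJ at h1
  simp only [Q.evalForm_smul] at h1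
  rw [integral_const_mul] at h1
  rw [II, JJ]
  linarith

include hn hθ hW hC in
theorem II_sub {m m' : Form ((Dif.lin (Z × (A × G))).on W)} (hm : Van N1 m) (hm' : Van N1 m') :
    II b θ nw (m - m') = II b θ nw m - II b θ nw m' := by
  have h1 := JJ_sub b
    (integrable_of b (II_smooth hn hθ hW hC (m := m)) (isCompact_Kc hn r')
      fun p hp => II_out hn hθ hm hp)
    (integrable_of b (II_smooth hn hθ hW hC (m := m')) (isCompact_Kc hn r')
      fun p hp => II_out hn hθ hm' hp)
  rw [II, II, II, ← h1]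
  refine JJ_congr b fun p => ?_
  rw [Form.sub_val, mul_sub]

include hN hn hθ hW hC in
/-- the radial integral of a closed form does not depend on the cut-off -/
theorem II_indep {θ' : ℝ → ℝ} (hθ' : RC θ' r r') {m : Form ((Dif.lin (Z × (A × G))).on W)}
    (hm : Van N1 m) (hd : m.d = 0) : II b θ nw m = II b θ' nw m := by
  have h1 := JJ_sub b
    (integrable_of b (II_smooth hn hθ hW hC (m := m)) (isCompact_Kc hn r')
      fun p hp => II_out hn hθ hm hp)
    (integrable_of b (II_smooth hn hθ' hW hC (m := m)) (isCompact_Kc hn r')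
      fun p hp => II_out hn hθ' hm hp)
  have hz : ∀ p : Z × (A × G), ¬ (r ≤ nw p.2.2 ∧ nw p.2.2 ≤ r') →
      ∀ᶠ q in 𝓝 p, Th θ nw q - Th θ' nw q = 0 := fun p hp => by
    have h1 : nw p.2.2 < r ∨ r' < nw p.2.2 := by
      by_contra h
      push Not at h
      exact hp h
    rcases h1 with h1 | h1
    · filter_upwards [Th_near_one hn hθ h1, Th_near_one hn hθ' h1] with q e1 e2
      rw [e1, e2, sub_self]
    · filter_upwards [Th_near_zero hn hθ h1, Th_near_zero hn hθ' h1] with q e1 e2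
      rw [e1, e2, sub_self]
  have h2 : JJ b (extd fun p => (Th θ nw p - Th θ' nw p) • m.val id p) = 0 := by
    refine JJ_d hN b (fun p => ?_) (isCompact_Kc hn r') fun p hp => ?_
    · by_cases hp : r ≤ nw p.2.2 ∧ nw p.2.2 ≤ r'
      · exact smul_sm ((contDiff_Th hn hθ).sub (contDiff_Th hn hθ')).contDiffAt
          (m.smooth (at_on hW (hC p hp.1 hp.2)))
      · refine contDiffAt_const (c := (0 : Lam (Z × (A × G)))).congr_of_eventuallyEq ?_
        filter_upwards [hz p hp] with q hq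
        rw [hq, zero_smul]
    · rcases not_mem_Kc hp with h | h
      · have hm' : Van (N1ᶜᶜ) m := by rw [compl_compl]; exact hm
        rw [van_val hm' closed_N1 (fun h2 => h2 h), smul_zero]
      · have := (hz p (fun h2 => absurd h2.2 (not_le.2 h))).self_of_nhds
        rw [this, zero_smul]
  have h3 : ∀ p, dx (fderiv ℝ (Th θ nw) p) * m.val id p -
      dx (fderiv ℝ (Th θ' nw) p) * m.val id p =
      extd (fun p => (Th θ nw p - Th θ' nw p) • m.val id p) p := fun p => by
    by_cases hp : r ≤ nw p.2.2 ∧ nw p.2.2 ≤ r'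
    · have hat := at_on hW (hC p hp.1 hp.2)
      have d1 : DifferentiableAt ℝ (Th θ nw) p := (contDiff_Th hn hθ).differentiable (by simp) p
      have d2 : DifferentiableAt ℝ (Th θ' nw) p := (contDiff_Th hn hθ').differentiable (by simp) p
      rw [extd_smul (f := fun p => Th θ nw p - Th θ' nw p) (d1.sub d2) (m.differentiableAt hat),
        fderiv_fun_sub d1 d2, map_sub, sub_mul]
      have h4 : extd (m.val id) p = 0 := by
        rw [← Form.d_val _ hat, hd]
        rfl
      rw [h4, smul_zero, add_zero]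
    · have h4 : (fun p => (Th θ nw p - Th θ' nw p) • m.val id p) =ᶠ[𝓝 p] fun _ => 0 := by
        filter_upwards [hz p hp] with q hq
        rw [hq, zero_smul]
      have h1 : nw p.2.2 < r ∨ r' < nw p.2.2 := by
        by_contra h
        push Not at h
        exact hp h
      rw [extd_congr h4, extd_const, fderiv_Th hn hθ h1, fderiv_Th hn hθ' h1, map_zero, zero_mul,
        sub_zero]
  rw [JJ_congr b h3, h2] at h1
  rw [II, II]
  linarith

end Props

end Vale.Agent.P231.S3B4
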