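import Vale.Agent.P231.S3B4.Rad
import Mathlib.Analysis.Calculus.BumpFunction.FiniteDimension

/-!
# P231, stage 3, [S3-B] (B4): relative numbers as radial integrals
-/

set_option linter.unusedSectionVars false
set_option linter.unusedVariables false

open MeasureTheory Set Module Filter Topology Metric
open scoped ContDiff Real ENNReal

namespace Vale.Agent.P231.S3B4

open Vale.Agent.P231.Fm Vale.Agent.P231.W Vale.Agent.P231.H584 Vale.Agent.P231.S3L
  Vale.Agent.P231.H766 Vale.Agent.P231.TW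
open Vale.Agent.P231.Fm.Form (IsDeg)

variable {Z A G : Type} [NormedAddCommGroup Z] [NormedSpace ℝ Z] [FiniteDimensional ℝ Z]
  [NormedAddCommGroup A] [NormedSpace ℝ A] [FiniteDimensional ℝ A]
  [NormedAddCommGroup G] [NormedSpace ℝ G] [FiniteDimensional ℝ G]

variable {nw : G → ℝ} {θ : ℝ → ℝ} {r r' r₁ R ρ : ℝ}

theorem stp0 : stp 0 = 0 := stp_of_le (by norm_num)

theorem stp1 : stp 1 = 1 := stp_of_ge (by norm_num)

theorem sm_stp {E : Type*} [NormedAddCommGroup E] [NormedSpace ℝ E] {f : E → ℝ} {x : E}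
    (h : Sm f x) : Sm (fun y => stp (f y)) x :=
  Sm.comp (f := stp) (Sm.of_contDiff stp_contDiff _) h

theorem sm_smulv {E F : Type*} [NormedAddCommGroup E] [NormedSpace ℝ E] [NormedAddCommGroup F]
    [NormedSpace ℝ F] {f : E → ℝ} {g : E → F} {x : E} (h : Sm f x) (h' : Sm g x) :
    Sm (fun y => f y • g y) x := by
  filter_upwards [h, h'] with y h1 h2 using h1.smul h2

/-- coordinates of plots of `Z × (A × G)` -/
theorem sm_zag {E : Type*} [NormedAddCommGroup E] [NormedSpace ℝ E] {u : E → Z × (A × G)} {x : E} :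
    Sm u x ↔ Sm (fun y => (u y).1) x ∧ Sm (fun y => (u y).2.1) x ∧ Sm (fun y => (u y).2.2) x :=
  ⟨fun h => ⟨h.fst, h.snd.fst, h.snd.snd⟩, fun h => h.1.prodMk (h.2.1.prodMk h.2.2)⟩

/-! ### the retraction to a sphere -/

/-- the annulus -/
def W1 (nw : G → ℝ) (r₁ R : ℝ) : Set (Z × (A × G)) := {p | r₁ < nw p.2.2 ∧ nw p.2.2 < R}

theorem open_W1 (hn : SmN nw) : IsOpen (W1 nw r₁ R : Set (Z × (A × G))) :=
  (isOpen_lt continuous_const (continuous_nw hn)).inter (isOpen_lt (continuous_nw hn)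
    continuous_const)

theorem cyl_W1 (h1 : r₁ < r) (h2 : r' < R) : Cyl (W1 nw r₁ R : Set (Z × (A × G))) nw r r' :=
  fun _ h3 h4 => ⟨h1.trans_le h3, h4.trans_lt h2⟩

/-- the homotopy from the identity to the retraction -/
noncomputable def rS (nw : G → ℝ) (ρ : ℝ) (p : (Z × (A × G)) × ℝ) : Z × (A × G) :=
  (p.1.1, (p.1.2.1, ((1 - stp p.2) + stp p.2 * (ρ / nw p.1.2.2)) • p.1.2.2))

/-- the retraction -/
noncomputable def ret (nw : G → ℝ) (ρ : ℝ) (p : Z × (A × G)) : Z × (A × G) :=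
  (p.1, (p.2.1, (ρ / nw p.2.2) • p.2.2))

theorem rS_zero (p : Z × (A × G)) : rS nw ρ (p, 0) = p := by
  unfold rS
  simp [stp0]

theorem rS_one (p : Z × (A × G)) : rS nw ρ (p, 1) = ret nw ρ p := by
  unfold rS ret
  simp [stp1]

theorem map_rS (hn : SmN nw) (h0 : 0 ≤ r₁) (h1 : r₁ < ρ) (h2 : ρ < R) :
    (((Dif.lin (Z × (A × G))).on (W1 nw r₁ R)).prod (Dif.lin ℝ)).Map
      ((Dif.lin (Z × (A × G))).on (W1 nw r₁ R)) (rS nw ρ) := by
  intro E _ _ _ u x hu
  have hu1 : Sm (fun y => (u y).1) x := hu.1.1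
  obtain ⟨a1, a2, a3⟩ := sm_zag.1 hu1
  have a4 : Sm (fun y => (u y).2) x := hu.2
  have hW : ∀ᶠ y in 𝓝 x, (u y).1 ∈ W1 nw r₁ R := hu.1.2
  refine ⟨?_, ?_⟩
  · refine sm_zag.2 ⟨a1, a2, ?_⟩
    have a5 : Sm (fun y => nw (u y).1.2.2) x := by
      filter_upwards [a3, hW] with y h3 h4
      exact (hn.smooth _ (hn.ne (h0.trans_lt h4.1))).comp y h3
    have a6 : Sm (fun y => (1 - stp (u y).2) + stp (u y).2 * (ρ / nw (u y).1.2.2)) x := by
      filter_upwards [sm_stp a4, a5, hW] with y h3 h4 h5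
      exact (contDiffAt_const.sub h3).add (h3.mul (contDiffAt_const.div h4
        (h0.trans_lt h5.1).ne'))
    exact sm_smulv a6 a3
  · filter_upwards [hW] with y hy
    have h3 : 0 < nw (u y).1.2.2 := h0.trans_lt hy.1
    obtain ⟨s0, s1⟩ := H766.stp_mem (u y).2
    have hρ : 0 < ρ := h0.trans_lt h1
    have h4 : 0 ≤ (1 - stp (u y).2) + stp (u y).2 * (ρ / nw (u y).1.2.2) := by
      have : 0 ≤ ρ / nw (u y).1.2.2 := (div_pos hρ h3).le
      nlinarith [mul_nonneg s0 this]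
    have h5 : nw (rS nw ρ (u y)).2.2 = (1 - stp (u y).2) * nw (u y).1.2.2 + stp (u y).2 * ρ := by
      change nw (((1 - stp (u y).2) + stp (u y).2 * (ρ / nw (u y).1.2.2)) • (u y).1.2.2) = _
      rw [hn.hom _ h4]
      field_simp
    change r₁ < nw (rS nw ρ (u y)).2.2 ∧ nw (rS nw ρ (u y)).2.2 < R
    rw [h5]
    obtain ⟨k1, k2⟩ : r₁ < nw (u y).1.2.2 ∧ nw (u y).1.2.2 < R := hy
    constructor
    · rcases s1.eq_or_lt with h | h
      · rw [h]; linarith
      · nlinarith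
    · rcases s1.eq_or_lt with h | h
      · rw [h]; linarith
      · nlinarith

theorem map_ret (hn : SmN nw) (h0 : 0 ≤ r₁) (h1 : r₁ < ρ) (h2 : ρ < R) :
    ((Dif.lin (Z × (A × G))).on (W1 nw r₁ R)).Map
      ((Dif.lin (Z × (A × G))).on (W1 nw r₁ R)) (ret nw ρ) := by
  intro E _ _ _ u x hu
  have h3 := map_rS (Z := Z) (A := A) hn h0 h1 h2 (u := fun y => (u y, (1 : ℝ))) (x := x)
    ⟨hu, Sm.of_contDiff contDiff_const _⟩
  have h4 : rS nw ρ ∘ (fun y => (u y, (1 : ℝ))) = ret nw ρ ∘ u := funext fun y => rS_one _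
  rwa [h4] at h3

section RetInt

variable [MeasurableSpace Z] [BorelSpace Z] [MeasurableSpace A] [BorelSpace A]
  [MeasurableSpace G] [BorelSpace G]
variable {N k : ℕ} (hN : N = k + 1) (b : Basis (Fin N) ℝ (Z × (A × G))) (hn : SmN nw)
  (hθ : RC θ r r')

include hN hn hθ in
/-- the radial integral only depends on the values on a sphere -/
theorem II_ret (h0 : 0 ≤ r₁) (h1 : r₁ < ρ) (h2 : ρ < R) (h3 : r₁ < r) (h4 : r' < R)
    {m : Form ((Dif.lin (Z × (A × G))).on (W1 nw r₁ R))} (hm : Van N1 m) (hd : m.d = 0) :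
    II b θ nw (Form.pull (ret nw ρ) (map_ret hn h0 h1 h2) m) = II b θ nw m := by
  have hS : (((Dif.lin (Z × (A × G))).on (W1 nw r₁ R)).prod (Dif.lin ℝ)).Map
    ((Dif.lin (Z × (A × G))).on (W1 nw r₁ R)) (rS nw ρ) := map_rS hn h0 h1 h2
  have e1 : at_ 1 (Form.pull (rS nw ρ) hS m) = Form.pull (ret nw ρ) (map_ret hn h0 h1 h2) m := by
    rw [at_pull_of hS 1 m]
    exact Form.pull_congr _ _ (funext fun p => rS_one p) m
  have e0 : at_ 0 (Form.pull (rS nw ρ) hS m) = m := by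
    rw [at_pull_of hS 0 m]
    have hid : ((Dif.lin (Z × (A × G))).on (W1 nw r₁ R)).Map
      ((Dif.lin (Z × (A × G))).on (W1 nw r₁ R)) id := Dif.map_id
    exact (Form.pull_congr _ hid (funext fun p => rS_zero p) m).trans (Form.pull_id _ m)
  have e2 := homotopy' (Form.pull (rS nw ρ) hS m)
  rw [e1, e0, ← Form.pull_d, hd, H584.pull_zero, K_zero, zero_add] at e2
  have v1 : Van (N1 ×ˢ (univ : Set ℝ)) (Form.pull (rS nw ρ) hS m) :=
    Van.mono (fun p hp => hp.1) (Van.pull hm hS)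
  have v2 : Van N1 (Form.K (Form.pull (rS nw ρ) hS m)) := Van.K v1
  have v3 : Van N1 (Form.pull (ret nw ρ) (map_ret hn h0 h1 h2) m) :=
    Van.mono (fun p hp => hp) (Van.pull hm (map_ret hn h0 h1 h2))
  have e3 := II_sub b hn hθ (open_W1 hn) (cyl_W1 h3 h4) v3 hm
  rw [e2, II_d hN b hn hθ (open_W1 hn) (cyl_W1 h3 h4) v2] at e3
  linarith

end RetInt

/-! ### the cone -/

/-- the radial contraction -/
noncomputable def cS (p : (Z × (A × G)) × ℝ) : Z × (A × G) := (p.1.1, (p.1.2.1, stp p.2 • p.1.2.2))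

/-- the disc bundle -/
def U1 (nw : G → ℝ) (R : ℝ) : Set (Z × (A × G)) := {p | nw p.2.2 < R}

theorem open_U1 (hn : SmN nw) : IsOpen (U1 nw R : Set (Z × (A × G))) :=
  isOpen_lt (continuous_nw hn) continuous_const

theorem W1_sub : (W1 nw r₁ R : Set (Z × (A × G))) ⊆ U1 nw R := fun _ h => h.2

theorem map_cS (hn : SmN nw) : (((Dif.lin (Z × (A × G))).on (U1 nw R)).prod (Dif.lin ℝ)).Map
    ((Dif.lin (Z × (A × G))).on (U1 nw R)) cS := by
  intro E _ _ _ u x hu
  have hu1 : Sm (fun y => (u y).1) x := hu.1.1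
  obtain ⟨a1, a2, a3⟩ := sm_zag.1 hu1
  refine ⟨sm_zag.2 ⟨a1, a2, sm_smulv (sm_stp hu.2) a3⟩, ?_⟩
  have hU : ∀ᶠ y in 𝓝 x, (u y).1 ∈ U1 nw R := hu.1.2
  filter_upwards [hU] with y hy
  obtain ⟨s0, s1⟩ := H766.stp_mem (u y).2
  change nw (stp (u y).2 • (u y).1.2.2) < R
  rw [hn.hom _ s0]
  have h1 : 0 ≤ nw (u y).1.2.2 := hn.nonneg _
  have h2 : nw (u y).1.2.2 < R := hy
  nlinarith

/-- the primitive of `T` on the disc bundle -/
noncomputable def K0 (hn : SmN nw) (T : Form ((Dif.lin (Z × (A × G))).on (U1 nw R))) :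
    Form ((Dif.lin (Z × (A × G))).on (U1 nw R)) := Form.K (Form.pull cS (map_cS hn) T)

theorem K0_van (hn : SmN nw) {T : Form ((Dif.lin (Z × (A × G))).on (U1 nw R))} {Nn : Set (Z × A)}
    (hT : Van {p | (p.1, p.2.1) ∈ Nn} T) : Van {p | (p.1, p.2.1) ∈ Nn} (K0 hn T) :=
  Van.K (Van.mono (fun p hp => hp.1) (Van.pull hT (map_cS hn)))

theorem K0_d (hn : SmN nw) (hR : 0 < R) {T : Form ((Dif.lin (Z × (A × G))).on (U1 nw R))}
    (hT : T.d = 0) (hT9 : IsDeg 29 T) (hZA : finrank ℝ Z + finrank ℝ A < 29) : (K0 hn T).d = T := by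
  have hS : (((Dif.lin (Z × (A × G))).on (U1 nw R)).prod (Dif.lin ℝ)).Map
    ((Dif.lin (Z × (A × G))).on (U1 nw R)) cS := map_cS hn
  have e1 : at_ 1 (Form.pull cS hS T) = T := by
    rw [at_pull_of hS 1 T]
    have hid : ((Dif.lin (Z × (A × G))).on (U1 nw R)).Map
      ((Dif.lin (Z × (A × G))).on (U1 nw R)) id := Dif.map_id
    exact (Form.pull_congr _ hid (funext fun p => by simp [cS, stp1]) T).trans
      (Form.pull_id _ T)
  have e0 : at_ 0 (Form.pull cS hS T) = 0 := by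
    rw [at_pull_of hS 0 T]
    let f : Z × (A × G) → Z × A := fun p => (p.1, p.2.1)
    let g : Z × A → Z × (A × G) := fun p => (p.1, (p.2, 0))
    have hf : ((Dif.lin (Z × (A × G))).on (U1 nw R)).Map (Dif.lin (Z × A)) f := fun {E} _ _ _
      {u x} hu => by
      obtain ⟨a1, a2, a3⟩ := sm_zag.1 hu.1
      exact a1.prodMk a2
    have hg : (Dif.lin (Z × A)).Map ((Dif.lin (Z × (A × G))).on (U1 nw R)) g := by
      intro E _ _ _ u x hu
      have hu' : Sm u x := hu
      refine ⟨sm_zag.2 ⟨hu'.fst, hu'.snd, Sm.of_contDiff contDiff_const _⟩,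
        Eventually.of_forall fun y => ?_⟩
      change nw 0 < R
      rwa [hn.zero]
    have e2 := pull_pull hf hg (k := fun p : Z × (A × G) => cS (p, (0 : ℝ))) (map_at hS 0)
      (fun p => by simp [f, g, cS, stp0]) T
    have hdim : WA.DimLE (Dif.lin (Z × A)) (finrank ℝ (Z × A)) := WA.dimLE_lin (Z × A)
    have e3 : Form.pull g hg T = 0 := hdim.isDeg_eq_zero (by rwa [finrank_prod])
      (IsDeg.pull hT9 _ _)
    rw [← e2, e3, H584.pull_zero]
  have e2 := homotopy' (Form.pull cS hS T)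
  rw [e1, e0, ← Form.pull_d, hT, H584.pull_zero, K_zero, zero_add, sub_zero] at e2
  exact e2.symm

/-! ### relative numbers as radial integrals -/

/-- the region in the base where forms do not vanish -/
def BZ : Set (Z × (A × G)) := {p | ‖p.1‖ ≤ 1}

theorem closed_BZ : IsClosed (BZ : Set (Z × (A × G))) :=
  isClosed_le continuous_fst.norm continuous_const

theorem van_BZ {O : Set (Z × (A × G))} {w : Form ((Dif.lin (Z × (A × G))).on O)}
    (hw : Van N1 w) : Van BZᶜ w :=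
  Van.mono (fun p hp => Or.inl (not_le.1 hp)) hw

section Main

variable [MeasurableSpace Z] [BorelSpace Z] [MeasurableSpace A] [BorelSpace A]
  [MeasurableSpace G] [BorelSpace G]
variable {N k : ℕ} (hN : N = k + 1) (b : Basis (Fin N) ℝ (Z × (A × G))) (hn : SmN nw)
  (hθ : RC θ r r')

/-- a product of cut-off functions -/
theorem exists_cut (hn : SmN nw) (hθ : RC θ r r') (h3 : r₁ < r) (h4 : r' < R)
    {O : Set (Z × (A × G))} (hO : ∀ p : Z × (A × G), nw p.2.2 < R → 1 < ‖p.2.1‖ → p ∈ O)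
    (hO2 : W1 nw r₁ R ⊆ O) :
    ∃ χ : Z × (A × G) → ℝ, Cut (U1 nw R) O BZ χ ∧
      ∀ p : Z × (A × G), p ∉ N1 → χ =ᶠ[𝓝 p] Th θ nw := by
  let fZ : ContDiffBump (0 : Z) := ⟨3 / 2, 2, by norm_num, by norm_num⟩
  let fA : ContDiffBump (0 : A) := ⟨3 / 2, 2, by norm_num, by norm_num⟩
  let χ : Z × (A × G) → ℝ := fun p => fZ p.1 * (fA p.2.1 * Th θ nw p)
  have hsm : ContDiff ℝ ∞ χ := (fZ.contDiff.comp contDiff_fst).mul
    ((fA.contDiff.comp (contDiff_fst.comp contDiff_snd)).mul (contDiff_Th hn hθ))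
  have hK : IsCompact (closedBall (0 : Z) 2 ×ˢ (closedBall (0 : A) 2 ×ˢ {w : G | nw w ≤ r'})) :=
    (isCompact_closedBall _ _).prod ((isCompact_closedBall _ _).prod (hn.cpt r'))
  have hout : ∀ p ∉ (closedBall (0 : Z) 2 ×ˢ (closedBall (0 : A) 2 ×ˢ {w : G | nw w ≤ r'})),
      χ p = 0 := by
    intro p hp
    by_cases h1 : p.1 ∈ closedBall (0 : Z) 2
    · by_cases h2 : p.2.1 ∈ closedBall (0 : A) 2
      · have h5 : ¬ nw p.2.2 ≤ r' := fun h => hp ⟨h1, h2, h⟩
        have h6 : Th θ nw p = 0 := hθ.zero _ (not_le.1 h5).le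
        simp only [χ, h6, mul_zero]
      · have h5 : fA p.2.1 = 0 := fA.zero_of_le_dist (by
          rw [mem_closedBall, not_le] at h2
          exact h2.le)
        simp only [χ, h5, zero_mul, mul_zero]
    · have h5 : fZ p.1 = 0 := fZ.zero_of_le_dist (by
        rw [mem_closedBall, not_le] at h1
        exact h1.le)
      simp only [χ, h5, zero_mul]
  have hts : tsupport χ ⊆ closedBall (0 : Z) 2 ×ˢ (closedBall (0 : A) 2 ×ˢ {w : G | nw w ≤ r'}) :=
    closure_minimal (fun p hp => by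
      by_contra h
      exact hp (hout p h)) hK.isClosed
  have heq : ∀ p : Z × (A × G), p ∉ N1 → χ =ᶠ[𝓝 p] Th θ nw := by
    intro p hp
    have h1 : ‖p.1‖ ≤ 1 := not_lt.1 fun h => hp (Or.inl h)
    have h2 : ‖p.2.1‖ ≤ 1 := not_lt.1 fun h => hp (Or.inr h)
    have c1 : ContinuousAt (fun q : Z × (A × G) => ‖q.1‖) p := continuous_fst.norm.continuousAt
    have c2 : ContinuousAt (fun q : Z × (A × G) => ‖q.2.1‖) p :=
      (continuous_fst.comp continuous_snd).norm.continuousAt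
    filter_upwards [c1.eventually_lt_const (show ‖p.1‖ < 3 / 2 by linarith),
      c2.eventually_lt_const (show ‖p.2.1‖ < 3 / 2 by linarith)] with q h5 h6
    have e1 : fZ q.1 = 1 := fZ.one_of_mem_closedBall (mem_closedBall_zero_iff.2 h5.le)
    have e2 : fA q.2.1 = 1 := fA.one_of_mem_closedBall (mem_closedBall_zero_iff.2 h6.le)
    simp only [χ, e1, e2, one_mul]
  refine ⟨χ, ⟨hsm, HasCompactSupport.of_support_subset_isCompact hK fun p hp => by
    by_contra h
    exact hp (hout p h), ?_, ?_⟩, heq⟩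
  · intro p hp
    exact (hts hp).2.2.trans_lt h4
  · intro p hp hp'
    have h1 : p ∉ O := fun h => hp' (Or.inl h)
    have h2 : p ∈ BZ := by
      by_contra h
      exact hp' (Or.inr ⟨hp, h⟩)
    have h5 : p ∉ N1 := by
      rintro (h | h)
      · exact absurd h (not_lt.2 h2)
      · exact h1 (hO p hp h)
    have h6 : nw p.2.2 < r := by
      by_contra h
      exact h1 (hO2 ⟨h3.trans_le (not_lt.1 h), hp⟩)
    filter_upwards [heq p h5, Th_near_one hn hθ h6] with q e1 e2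
    rw [e1, e2]

include hN hn hθ in
/-- **the relative number as a radial integral** -/
theorem Wf_radial (hR : 0 < R) (h3 : r₁ < r) (h4 : r' < R) (hZA : finrank ℝ Z + finrank ℝ A < 29)
    {O : Set (Z × (A × G))} (opO : IsOpen O) (hOU : O ⊆ U1 nw R)
    (hO : ∀ p : Z × (A × G), nw p.2.2 < R → 1 < ‖p.2.1‖ → p ∈ O) (hO2 : W1 nw r₁ R ⊆ O)
    {T : Form ((Dif.lin (Z × (A × G))).on (U1 nw R))}
    {L : Form ((Dif.lin (Z × (A × G))).on O)} (h : Pk (U1 nw R) O BZ T L) (hT : T.d = 0)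
    (hT9 : IsDeg 29 T) (vT : Van N1 T) (vL : Van N1 L) {χ : Z × (A × G) → ℝ}
    (hχ : Cut (U1 nw R) O BZ χ) :
    Wf b χ T L = II b θ nw (Form.pull id (Dif.map_on_mono hO2) L -
      Form.pull id (Dif.map_on_mono W1_sub) (K0 hn T)) ∧
      (Form.pull id (Dif.map_on_mono hO2) L -
        Form.pull id (Dif.map_on_mono W1_sub) (K0 hn T)).d = 0 ∧
      Van N1 (Form.pull id (Dif.map_on_mono hO2) L -
        Form.pull id (Dif.map_on_mono W1_sub) (K0 hn T)) := by
  obtain ⟨χ', hχ', heq⟩ := exists_cut (Z := Z) (A := A) hn hθ h3 h4 hO hO2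
  have hKd := K0_d hn hR hT hT9 hZA
  have vK : Van N1 (K0 hn T) := K0_van (Nn := {q | 1 < ‖q.1‖ ∨ 1 < ‖q.2‖}) hn vT
  set L' : Form ((Dif.lin (Z × (A × G))).on O) := L - Form.pull id (Dif.map_on_mono hOU) (K0 hn T)
    with hL'
  have vL' : Van N1 L' := vL.sub (Van.pull vK (Dif.map_on_mono hOU))
  have hdL' : L'.d = 0 := by
    rw [hL', Form.d_sub, h.d, ← Form.pull_d, hKd, sub_self]
  have h' : Pk (U1 nw R) O BZ (0 : Form ((Dif.lin (Z × (A × G))).on (U1 nw R))) L' :=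
    { opU := h.opU
      opO := opO
      sub := hOU
      clB := h.clB
      d := by rw [hdL', H584.pull_zero]
      vT := Van.zero _
      vL := van_BZ vL' }
  have e1 : Wf b χ T L = Wf b χ' T L := Wf_indep hN b h hχ hχ'
  have e2 : Wf b χ' T L = Wf b χ' (0 : Form ((Dif.lin (Z × (A × G))).on (U1 nw R))) L' := by
    refine Wn_htpy (κ := (K0 hn T).val id) (m := fun _ => 0) hN b h.pair h'.pair hχ'
      (fun x hx => (K0 hn T).smooth (at_on h.opU hx)) (fun x hx => contDiffAt_const)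
      (fun x hx => ?_) (fun x hx => ?_)
    · rw [← Form.d_val _ (at_on h.opU hx), hKd, Form.zero_val, sub_zero]
    · rw [extd_const, add_zero]
      by_cases hxO : x ∈ O
      · have h5 : L'.val (id : Z × (A × G) → _) x = L.val id x - (K0 hn T).val id x := by
          rw [hL', Form.sub_val, Form.pull_val _ _ (at_on opO hxO)]
          rfl
        rw [h5]
        abel
      · have hxB : x ∉ BZ := (hx.resolve_left hxO).2
        rw [van_val h.vL h.clB hxB, van_val h'.vL h.clB hxB, van_val (van_BZ vK) h.clB hxB,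
          sub_zero]
  have e3 : Form.pull id (Dif.map_on_mono hO2) L -
      Form.pull id (Dif.map_on_mono W1_sub) (K0 hn T) =
      Form.pull id (Dif.map_on_mono hO2) L' := by
    rw [hL', H584.pull_sub]
    congr 1
    exact (pull_pull (Dif.map_on_mono hO2) (Dif.map_on_mono hOU) (Dif.map_on_mono W1_sub)
      (fun _ => rfl) _).symm
  have v3 : Van N1 (Form.pull id (Dif.map_on_mono hO2) L') := Van.pull vL' _
  rw [e3]
  refine ⟨?_, by rw [← Form.pull_d, hdL', H584.pull_zero], v3⟩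
  rw [e1, e2]
  refine JJ_congr b fun p => ?_
  rw [wv, Form.zero_val, smul_zero, zero_add]
  by_cases hp : p ∈ N1
  · have v4 : Van (N1ᶜᶜ) L' := by rw [compl_compl]; exact vL'
    have v5 : Van (N1ᶜᶜ) (Form.pull id (Dif.map_on_mono hO2) L') := by rw [compl_compl]; exact v3
    rw [van_val v4 closed_N1 (fun h2 => h2 hp), van_val v5 closed_N1 (fun h2 => h2 hp), mul_zero,
      mul_zero]
  · rw [(heq p hp).fderiv_eq]
    by_cases h5 : nw p.2.2 < r ∨ r' < nw p.2.2
    · rw [fderiv_Th hn hθ h5, map_zero, zero_mul, zero_mul]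
    · push Not at h5
      have h6 : p ∈ W1 nw r₁ R := cyl_W1 h3 h4 p h5.1 h5.2
      rw [Form.pull_val _ _ (at_on (open_W1 hn) h6)]
      rfl

end Main

end Vale.Agent.P231.S3B4
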