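import Vale.Agent.P231.S3B4.Lp

/-!
# P231, stage 3, [S3-B] (B4): relative classes on spaces with plots, and their values on plots
-/

set_option linter.unusedSectionVars false
set_option linter.unusedVariables false

open MeasureTheory Set Module Filter Topology
open scoped ContDiff Real ENNReal

namespace Vale.Agent.P231.S3B4

open Vale.Agent.P231.Fm Vale.Agent.P231.W Vale.Agent.P231.H584 Vale.Agent.P231.S3L
  Vale.Agent.P231.H766 Vale.Agent.P231.TW
open Vale.Agent.P231.Fm.Form (IsDeg)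

/-! ### thin maps -/

section Thin

variable {X Y : Type*} {D : Dif X} {D' : Dif Y} {f : X → Y} {m : ℕ}

theorem van_thin {N : Set X} {k : ℕ} (hf : D.Map D' f) (h : TH.Thin (D.on N) D' f m)
    (hk : m < k) {w : Form D'} (hw : IsDeg k w) : Van N (Form.pull f hf w) := by
  intro E _ _ _ u x hu hN
  have h1 : (D.on N).At u x := ⟨hu, hN⟩
  have h2 := h.pull_eq_zero (hf.on N) hk hw
  have h3 := congrArg (fun v => Form.val v u x) h2
  beta_reduce at h3
  rw [Form.pull_val _ _ h1] at h3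
  rw [Form.pull_val _ _ hu]
  exact h3

theorem thin_of_map {X' : Type*} {D₀ : Dif X'} {g : X' → X} (h : TH.Thin D D' f m)
    (hg : D₀.Map D g) {f' : X' → Y} (he : ∀ x, f' x = f (g x)) : TH.Thin D₀ D' f' m := by
  have h1 := h.comp_right hg
  have h2 : f' = fun x => f (g x) := funext he
  rw [h2]
  exact h1

/-- the product with the line -/
theorem thin_prod (h : TH.Thin D D' f m) :
    TH.Thin (D.prod (Dif.lin ℝ)) (D'.prod (Dif.lin ℝ)) (fun p : X × ℝ => (f p.1, p.2))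
      (m + 1) := by
  refine ⟨fun {E} _ _ _ {u x} hu => ?_⟩
  obtain ⟨F, i1, i2, i3, v, g, hF, hg, hv, he⟩ := h.fac (u := fun y => (u y).1) hu.1
  refine ⟨F × ℝ, inferInstance, inferInstance, inferInstance, fun p => (v p.1, p.2),
    fun y => (g y, (u y).2), ?_, hg.prodMk hu.2, ?_, ?_⟩
  · rw [finrank_prod, finrank_self]
    omega
  · exact ⟨D'.comp (u := v) (g := fun p : F × ℝ => p.1) (x := (g x, (u x).2)) hv
      (Sm.of_contDiff contDiff_fst _), Sm.of_contDiff contDiff_snd _⟩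
  · filter_upwards [he] with y hy
    have h1 : f (u y).1 = v (g y) := hy
    exact Prod.ext h1 rfl

end Thin

/-! ### relative classes -/

section Rel

variable {Y : Type*} {DY : Dif Y}

/-- a closed form of degree 29 with a primitive of degree 28 on an open set -/
structure Rel (DY : Dif Y) (OY : Set Y) (T : Form DY) (L : Form (DY.on OY)) : Prop where
  opn : TH.Opn DY OY
  cl : T.d = 0
  d : L.d = Form.res OY T
  degT : IsDeg 29 T
  degL : IsDeg 28 L

variable {OY : Set Y} {T : Form DY} {L : Form (DY.on OY)}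

/-- the pull back of relative classes -/
theorem Rel.pull (h : Rel DY OY T L) {Y' : Type*} {DY' : Dif Y'} {f : Y' → Y}
    (hf : DY'.Map DY f) {OY' : Set Y'} (hO : TH.Opn DY' OY') (hm : ∀ y ∈ OY', f y ∈ OY) :
    Rel DY' OY' (Form.pull f hf T) (Form.pull f (hf.on_on hm) L) where
  opn := hO
  cl := by rw [← Form.pull_d, h.cl, H584.pull_zero]
  d := by
    rw [← Form.pull_d, h.d]
    exact (pull_pull (hf.on_on hm) Dif.map_on (hf.on OY') (fun _ => rfl) T).trans
      (pull_pull Dif.map_on hf (hf.on OY') (fun _ => rfl) T).symm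
  degT := IsDeg.pull h.degT _ _
  degL := IsDeg.pull h.degL _ _

end Rel

/-! ### plots -/

section Plt

variable {V : Type} [NormedAddCommGroup V] [NormedSpace ℝ V] [FiniteDimensional ℝ V]
variable {Y : Type*} {DY : Dif Y} {OY : Set Y} {T : Form DY} {L : Form (DY.on OY)}
variable {U O B : Set V}

/-- a plot for relative classes -/
structure Plt (U O B : Set V) (DY : Dif Y) (OY : Set Y) (κ : V → Y) : Prop where
  opU : IsOpen U
  opO : IsOpen O
  sub : O ⊆ U
  clB : IsClosed B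
  map : ((Dif.lin V).on U).Map DY κ
  mem : ∀ x ∈ O, κ x ∈ OY
  thin : TH.Thin ((Dif.lin V).on (U ∩ Bᶜ)) DY κ 27

/-- a homotopy of plots -/
structure PltH (U O B : Set V) (DY : Dif Y) (OY : Set Y) (κ : V × ℝ → Y) : Prop where
  opU : IsOpen U
  opO : IsOpen O
  sub : O ⊆ U
  clB : IsClosed B
  map : (((Dif.lin V).on U).prod (Dif.lin ℝ)).Map DY κ
  mem : ∀ x ∈ O, ∀ r, κ (x, r) ∈ OY
  thin : TH.Thin (((Dif.lin V).on (U ∩ Bᶜ)).prod (Dif.lin ℝ)) DY κ 27

variable {κ : V → Y}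

theorem Plt.mapO (h : Plt U O B DY OY κ) : ((Dif.lin V).on O).Map (DY.on OY) κ :=
  fun {E} _ _ _ {u x} hu =>
    ⟨h.map ⟨hu.1, hu.2.mono fun _ hy => h.sub hy⟩, hu.2.mono fun _ hy => h.mem _ hy⟩

theorem PltH.mapO {κ : V × ℝ → Y} (h : PltH U O B DY OY κ) :
    (((Dif.lin V).on O).prod (Dif.lin ℝ)).Map (DY.on OY) κ := fun {E} _ _ _ {u x} hu =>
  ⟨h.map ⟨⟨hu.1.1, hu.1.2.mono fun _ hy => h.sub hy⟩, hu.2⟩,
    hu.1.2.mono fun y hy => h.mem _ hy (u y).2⟩

theorem PltH.at_ {κ : V × ℝ → Y} (h : PltH U O B DY OY κ) (c : ℝ) :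
    Plt U O B DY OY fun x => κ (x, c) where
  opU := h.opU
  opO := h.opO
  sub := h.sub
  clB := h.clB
  map := map_at h.map c
  mem x hx := h.mem x hx c
  thin := h.thin.comp_right (g := fun x : V => (x, c)) (Form.map_slice c)

/-- the pair of forms of a plot -/
theorem Plt.pk (h : Plt U O B DY OY κ) (hR : Rel DY OY T L) :
    Pk U O B (Form.pull κ h.map T) (Form.pull κ h.mapO L) where
  opU := h.opU
  opO := h.opO
  sub := h.sub
  clB := h.clB
  d := by
    have h1 : ((Dif.lin V).on O).Map DY κ := fun {E} _ _ _ {u x} hu => (h.mapO hu).1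
    rw [← Form.pull_d, hR.d]
    exact (pull_pull h.mapO Dif.map_on h1 (fun _ => rfl) T).trans
      (pull_pull (Dif.map_on_mono h.sub) h.map h1 (fun _ => rfl) T).symm
  vT := by
    refine van_thin h.map ?_ (by norm_num : 27 < 29) hR.degT
    exact thin_of_map (D₀ := ((Dif.lin V).on U).on Bᶜ) (g := id) h.thin
      (fun {E} _ _ _ {u x} hu => ⟨hu.1.1, (hu.1.2.and hu.2).mono fun y hy => hy⟩) fun _ => rfl
  vL := by
    refine van_thin h.mapO ?_ (by norm_num : 27 < 28) hR.degL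
    have h1 : TH.Thin (((Dif.lin V).on O).on Bᶜ) DY κ 27 :=
      thin_of_map (D₀ := ((Dif.lin V).on O).on Bᶜ) (g := id) h.thin (fun {E} _ _ _ {u x} hu =>
        ⟨hu.1.1, (hu.1.2.and hu.2).mono fun y hy => ⟨h.sub hy.1, hy.2⟩⟩) fun _ => rfl
    exact h1.to_on hR.opn fun x {E} _ _ _ {u y} hu hy => hy ▸ h.mem _ hu.1.2.self_of_nhds

variable [MeasurableSpace V] [BorelSpace V] {χ : V → ℝ}

/-- **the value of a relative class on a plot** -/
noncomputable def Pn {N : ℕ} (b : Basis (Fin N) ℝ V) (χ : V → ℝ) (h : Plt U O B DY OY κ)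
    (T : Form DY) (L : Form (DY.on OY)) : ℝ :=
  Wf b χ (Form.pull κ h.map T) (Form.pull κ h.mapO L)

theorem Pn_indep {N k : ℕ} (hN : N = k + 1) (b : Basis (Fin N) ℝ V) (h : Plt U O B DY OY κ)
    (hR : Rel DY OY T L) {χ χ' : V → ℝ} (hχ : Cut U O B χ) (hχ' : Cut U O B χ') :
    Pn b χ h T L = Pn b χ' h T L :=
  Wf_indep hN b (h.pk hR) hχ hχ'

/-- **homotopy invariance** -/
theorem Pn_htpy {N k : ℕ} (hN : N = k + 1) (b : Basis (Fin N) ℝ V) {κ : V × ℝ → Y}
    (h : PltH U O B DY OY κ) (hR : Rel DY OY T L) (hχ : Cut U O B χ) :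
    Pn b χ (h.at_ 1) T L = Pn b χ (h.at_ 0) T L := by
  have hT : (Form.pull κ h.map T).d = 0 := by rw [← Form.pull_d, hR.cl, H584.pull_zero]
  have h1 : (((Dif.lin V).on O).prod (Dif.lin ℝ)).Map DY κ := fun {E} _ _ _ {u x} hu =>
    (h.mapO hu).1
  have hL : (Form.pull κ h.mapO L).d = Form.pull (fun p : V × ℝ => (id p.1, p.2))
      (map_cyl (Dif.map_on_mono h.sub)) (Form.pull κ h.map T) := by
    rw [← Form.pull_d, hR.d]
    exact (pull_pull h.mapO Dif.map_on h1 (fun _ => rfl) T).trans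
      (pull_pull (map_cyl (Dif.map_on_mono h.sub)) h.map h1 (fun _ => rfl) T).symm
  have vT : Van (Bᶜ ×ˢ (Set.univ : Set ℝ)) (Form.pull κ h.map T) := by
    refine van_thin h.map ?_ (by norm_num : 27 < 29) hR.degT
    exact thin_of_map (D₀ := (((Dif.lin V).on U).prod (Dif.lin ℝ)).on
      (Bᶜ ×ˢ (Set.univ : Set ℝ))) (g := id) h.thin (fun {E} _ _ _ {u x} hu =>
      ⟨⟨hu.1.1.1, (hu.1.1.2.and hu.2).mono fun y hy => ⟨hy.1, hy.2.1⟩⟩, hu.1.2⟩) fun _ => rfl
  have vL : Van (Bᶜ ×ˢ (Set.univ : Set ℝ)) (Form.pull κ h.mapO L) := by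
    refine van_thin h.mapO ?_ (by norm_num : 27 < 28) hR.degL
    have h1 : TH.Thin ((((Dif.lin V).on O).prod (Dif.lin ℝ)).on (Bᶜ ×ˢ (Set.univ : Set ℝ))) DY
        κ 27 := thin_of_map (D₀ := (((Dif.lin V).on O).prod (Dif.lin ℝ)).on
      (Bᶜ ×ˢ (Set.univ : Set ℝ))) (g := id) h.thin (fun {E} _ _ _ {u x} hu =>
      ⟨⟨hu.1.1.1, (hu.1.1.2.and hu.2).mono fun y hy => ⟨h.sub hy.1, hy.2.1⟩⟩, hu.1.2⟩)
        fun _ => rfl
    exact h1.to_on hR.opn fun x {E} _ _ _ {u y} hu hy => hy ▸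
      h.mem _ hu.1.1.2.self_of_nhds (u y).2
  obtain ⟨-, -, h2⟩ := Wf_htpy hN b h.opU h.opO h.sub h.clB hχ hT hL vT vL
  have e1 : ∀ c, at_ c (Form.pull κ h.map T) = Form.pull (fun x => κ (x, c)) (h.at_ c).map T :=
    fun c => at_pull_of h.map c T
  have e2 : ∀ c, at_ c (Form.pull κ h.mapO L) = Form.pull (fun x => κ (x, c)) (h.at_ c).mapO L :=
    fun c => at_pull_of h.mapO c L
  rw [e1, e1, e2, e2] at h2
  exact h2

end Plt

end Vale.Agent.P231.S3B4
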