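import Vale.Agent.P231.TW.Hlp
import Vale.Agent.P231.TW.DegMap

/-!
# P231, stage 3, [S3-B] (B4): relative classes

On a finite dimensional space `V`: a closed form `T` of top degree on an open set `U` with a
primitive `ℓ` on the smaller open set `O`, `U ∖ O` compact. The number
`W = ∫ χ T + dχ ∧ ℓ` (`χ` a cut-off) does not depend on `χ` and is invariant under homotopies.
-/

set_option linter.unusedSectionVars false
set_option linter.unusedVariables false

open Module MeasureTheory Set Metric Filter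
open scoped ContDiff Topology

namespace Vale.Agent.P231.S3B4

open Fm TW

variable {V : Type*} [NormedAddCommGroup V] [NormedSpace ℝ V] [FiniteDimensional ℝ V]

/-- the relative form -/
noncomputable def wv (χ : V → ℝ) (T ℓ : V → Lam V) (x : V) : Lam V :=
  χ x • T x + dx (fderiv ℝ χ x) * ℓ x

/-- a closed form with a primitive on a smaller set -/
structure Pair (U O : Set V) (T ℓ : V → Lam V) : Prop where
  opU : IsOpen U
  opO : IsOpen O
  sub : O ⊆ U
  smT : ∀ x ∈ U, ContDiffAt ℝ ∞ T x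
  sml : ∀ x ∈ O, ContDiffAt ℝ ∞ ℓ x
  d : ∀ x ∈ O, extd ℓ x = T x

/-- a cut-off function -/
structure CutOf (U O : Set V) (χ : V → ℝ) : Prop where
  smooth : ContDiff ℝ ∞ χ
  cpt : HasCompactSupport χ
  supp : tsupport χ ⊆ U
  one : ∀ x ∈ U, x ∉ O → ∀ᶠ y in 𝓝 x, χ y = 1

theorem fderiv_of_eventually_const {χ : V → ℝ} {x : V} {c : ℝ} (h : ∀ᶠ y in 𝓝 x, χ y = c) :
    fderiv ℝ χ x = 0 := by
  have h1 : χ =ᶠ[𝓝 x] fun _ => c := h
  rw [h1.fderiv_eq, fderiv_fun_const]
  rfl

theorem smAt_dx {χ : V → ℝ} (hχ : ContDiff ℝ ∞ χ) (x : V) :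
    ContDiffAt ℝ ∞ (fun x => dx (fderiv ℝ χ x)) x := by
  have h1 : ContDiff ℝ ∞ (fderiv ℝ χ) := hχ.fderiv_right (by simp)
  exact (dx.contDiff.comp h1).contDiffAt

theorem extd_dx_fderiv {χ : V → ℝ} (hχ : ContDiff ℝ ∞ χ) (x : V) :
    extd (fun x => dx (fderiv ℝ χ x)) x = 0 := by
  have h1 : (fun x => dx (fderiv ℝ χ x)) = extd (fn χ) := funext fun y =>
    (extd_fn (hχ.differentiable (by simp) y)).symm
  rw [h1]
  have h4 : fn χ = fun y => χ y • (1 : Lam V) := by
    funext y
    rw [fn, Algebra.algebraMap_eq_smul_one]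
  have h3 : ContDiffAt ℝ ∞ (fn χ) x := by
    rw [h4]
    exact hχ.contDiffAt.smul (contDiffAt_const (c := (1 : Lam V)))
  exact extd_extd (h3.of_le Fm.two_le_infty)

variable {U O : Set V} {T ℓ : V → Lam V} {χ χ' : V → ℝ}

theorem CutOf.near_zero (hχ : CutOf U O χ) {x : V} (hx : x ∉ U) : ∀ᶠ y in 𝓝 x, χ y = 0 := by
  have h1 : x ∉ tsupport χ := fun h => hx (hχ.supp h)
  exact notMem_tsupport_iff_eventuallyEq.1 h1

/-- the relative form is smooth -/
theorem wv_smooth (h : Pair U O T ℓ) (hχ : CutOf U O χ) (x : V) :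
    ContDiffAt ℝ ∞ (wv χ T ℓ) x := by
  by_cases hU : x ∈ U
  · by_cases hO : x ∈ O
    · exact (hχ.smooth.contDiffAt.smul (h.smT x hU)).add ((smAt_dx hχ.smooth x).mul (h.sml x hO))
    · have h1 := hχ.one x hU hO
      refine (h.smT x hU).congr_of_eventuallyEq ?_
      filter_upwards [eventually_eventually_nhds.2 h1] with y hy
      rw [wv, hy.self_of_nhds, fderiv_of_eventually_const hy, map_zero, zero_mul, add_zero,
        one_smul]
  · have h1 := hχ.near_zero hU
    refine contDiffAt_const (c := (0 : Lam V)).congr_of_eventuallyEq ?_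
    filter_upwards [eventually_eventually_nhds.2 h1] with y hy
    rw [wv, hy.self_of_nhds, fderiv_of_eventually_const hy, map_zero, zero_mul, add_zero,
      zero_smul]

theorem wv_zero (hχ : CutOf U O χ) {x : V} (hx : x ∉ tsupport χ) (T ℓ : V → Lam V) :
    wv χ T ℓ x = 0 := by
  have h1 : ∀ᶠ y in 𝓝 x, χ y = 0 := notMem_tsupport_iff_eventuallyEq.1 hx
  rw [wv, h1.self_of_nhds, fderiv_of_eventually_const h1, map_zero, zero_mul, add_zero,
    zero_smul]

section Int

variable [MeasurableSpace V] [BorelSpace V]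

/-- Stokes for smooth forms with compact support -/
theorem JJ_d {N k : ℕ} (hN : N = k + 1) (b : Basis (Fin N) ℝ V) {w : V → Lam V}
    (hw : ∀ x, ContDiffAt ℝ ∞ w x) {K : Set V} (hK : IsCompact K) (h0 : ∀ x ∉ K, w x = 0) :
    JJ b (extd w) = 0 := by
  refine JJ_extd' hN b ((contDiff_iff_contDiffAt.2 hw).of_le (by simp)) hK fun x hx => ?_
  rw [h0 x hx, map_zero]

/-- integrability of smooth forms with compact support -/
theorem integrable_of {N : ℕ} (b : Basis (Fin N) ℝ V) {w : V → Lam V}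
    (hw : ∀ x, ContDiffAt ℝ ∞ w x) {K : Set V} (hK : IsCompact K) (h0 : ∀ x ∉ K, w x = 0) :
    Integrable (fun x => evalForm (w x) b) b.addHaar := by
  have h1 : Continuous w := (contDiff_iff_contDiffAt.2 hw).continuous
  have h2 : Continuous fun x => evalForm (w x) b := (evalL b).continuous.comp h1
  refine h2.integrable_of_hasCompactSupport (HasCompactSupport.intro hK fun x hx => ?_)
  rw [h0 x hx]
  exact Q.evalForm_zero _

theorem JJ_sub {N : ℕ} (b : Basis (Fin N) ℝ V) {v w : V → Lam V}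
    (hv : Integrable (fun x => evalForm (v x) b) b.addHaar)
    (hw : Integrable (fun x => evalForm (w x) b) b.addHaar) :
    JJ b (fun x => v x - w x) = JJ b v - JJ b w := by
  unfold JJ
  rw [← integral_sub hv hw]
  refine integral_congr_ae (Eventually.of_forall fun x => ?_)
  exact Q.evalForm_sub _ _ _

/-- **the relative number** -/
noncomputable def Wn {N : ℕ} (b : Basis (Fin N) ℝ V) (χ : V → ℝ) (T ℓ : V → Lam V) : ℝ :=
  JJ b (wv χ T ℓ)

/-- a general cancellation: if the difference of two relative forms is exact -/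
theorem Wn_eq_of {N k : ℕ} (hN : N = k + 1) (b : Basis (Fin N) ℝ V) {T' ℓ' : V → Lam V}
    (h : Pair U O T ℓ) (hχ : CutOf U O χ) (h' : Pair U O T' ℓ') (hχ' : CutOf U O χ')
    {w : V → Lam V} (hw : ∀ x, ContDiffAt ℝ ∞ w x) {K : Set V} (hK : IsCompact K)
    (h0 : ∀ x ∉ K, w x = 0) (he : ∀ x, wv χ T ℓ x - wv χ' T' ℓ' x = extd w x) :
    Wn b χ T ℓ = Wn b χ' T' ℓ' := by
  have h1 := JJ_sub b (integrable_of b (wv_smooth h hχ) hχ.cpt fun x hx => wv_zero hχ hx T ℓ)
    (integrable_of b (wv_smooth h' hχ') hχ'.cpt fun x hx => wv_zero hχ' hx T' ℓ')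
  rw [JJ_congr b he, JJ_d hN b hw hK h0] at h1
  rw [Wn, Wn]
  linarith

/-- the relative number does not depend on the cut-off -/
theorem Wn_indep {N k : ℕ} (hN : N = k + 1) (b : Basis (Fin N) ℝ V) (h : Pair U O T ℓ)
    (hχ : CutOf U O χ) (hχ' : CutOf U O χ') : Wn b χ T ℓ = Wn b χ' T ℓ := by
  set w : V → Lam V := fun x => (χ x - χ' x) • ℓ x with hw
  -- near the points outside `O` the function `χ - χ'` vanishes
  have hz : ∀ x ∉ O, ∀ᶠ y in 𝓝 x, χ y - χ' y = 0 := fun x hx => by
    by_cases hU : x ∈ U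
    · filter_upwards [hχ.one x hU hx, hχ'.one x hU hx] with y h1 h2
      rw [h1, h2, sub_self]
    · filter_upwards [hχ.near_zero hU, hχ'.near_zero hU] with y h1 h2
      rw [h1, h2, sub_self]
  refine Wn_eq_of hN b h hχ h hχ' (w := w) (fun x => ?_) (K := tsupport χ ∪ tsupport χ')
    (hχ.cpt.union hχ'.cpt) (fun x hx => ?_) fun x => ?_
  · by_cases hO : x ∈ O
    · exact (hχ.smooth.sub hχ'.smooth).contDiffAt.smul (h.sml x hO)
    · refine contDiffAt_const (c := (0 : Lam V)).congr_of_eventuallyEq ?_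
      filter_upwards [hz x hO] with y hy
      rw [hw]
      beta_reduce
      rw [hy, zero_smul]
  · have h1 : χ x = 0 := image_eq_zero_of_notMem_tsupport fun h => hx (Or.inl h)
    have h2 : χ' x = 0 := image_eq_zero_of_notMem_tsupport fun h => hx (Or.inr h)
    rw [hw]
    beta_reduce
    rw [h1, h2, sub_self, zero_smul]
  · by_cases hO : x ∈ O
    · have h1 : DifferentiableAt ℝ χ x := hχ.smooth.differentiable (by simp) x
      have h2 : DifferentiableAt ℝ χ' x := hχ'.smooth.differentiable (by simp) x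
      have h3 : DifferentiableAt ℝ ℓ x := (h.sml x hO).differentiableAt (by simp)
      rw [hw, extd_smul (f := fun x => χ x - χ' x) (h1.sub h2) h3, h.d x hO]
      have h4 : fderiv ℝ (fun y => χ y - χ' y) x = fderiv ℝ χ x - fderiv ℝ χ' x :=
        fderiv_fun_sub h1 h2
      rw [h4, map_sub, sub_mul, sub_smul, wv, wv]
      abel
    · have h1 : w =ᶠ[𝓝 x] fun _ => 0 := by
        filter_upwards [hz x hO] with y hy
        rw [hw]
        beta_reduce
        rw [hy, zero_smul]
      rw [extd_congr h1, extd_const]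
      have h2 : χ x = χ' x := sub_eq_zero.1 (hz x hO).self_of_nhds
      have h3 : fderiv ℝ χ x = fderiv ℝ χ' x := by
        have h4 : χ =ᶠ[𝓝 x] χ' := by
          filter_upwards [hz x hO] with y hy using sub_eq_zero.1 hy
        exact h4.fderiv_eq
      rw [wv, wv, h2, h3, sub_self]

/-- **homotopy invariance** -/
theorem Wn_htpy {N k : ℕ} (hN : N = k + 1) (b : Basis (Fin N) ℝ V) {T' ℓ' κ m : V → Lam V}
    (h : Pair U O T ℓ) (h' : Pair U O T' ℓ') (hχ : CutOf U O χ)
    (hκ : ∀ x ∈ U, ContDiffAt ℝ ∞ κ x) (hm : ∀ x ∈ O, ContDiffAt ℝ ∞ m x)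
    (h1 : ∀ x ∈ U, T x - T' x = extd κ x) (h2 : ∀ x ∈ O, ℓ x - ℓ' x = κ x + extd m x) :
    Wn b χ T ℓ = Wn b χ T' ℓ' := by
  set w : V → Lam V := fun x => χ x • κ x - dx (fderiv ℝ χ x) * m x with hw
  have hzU : ∀ x ∉ U, w =ᶠ[𝓝 x] fun _ => 0 := fun x hx => by
    filter_upwards [eventually_eventually_nhds.2 (hχ.near_zero hx)] with y hy
    rw [hw]
    beta_reduce
    rw [hy.self_of_nhds, fderiv_of_eventually_const hy, map_zero, zero_mul, zero_smul, sub_zero]
  have hzO : ∀ x ∈ U, x ∉ O → w =ᶠ[𝓝 x] κ := fun x hx hO => by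
    filter_upwards [eventually_eventually_nhds.2 (hχ.one x hx hO)] with y hy
    rw [hw]
    beta_reduce
    rw [hy.self_of_nhds, fderiv_of_eventually_const hy, map_zero, zero_mul, one_smul, sub_zero]
  refine Wn_eq_of hN b h hχ h' hχ (w := w) (fun x => ?_) (K := tsupport χ) hχ.cpt
    (fun x hx => ?_) fun x => ?_
  · by_cases hU : x ∈ U
    · by_cases hO : x ∈ O
      · exact (hχ.smooth.contDiffAt.smul (hκ x hU)).sub ((smAt_dx hχ.smooth x).mul (hm x hO))
      · exact (hκ x hU).congr_of_eventuallyEq (hzO x hU hO)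
    · exact contDiffAt_const (c := (0 : Lam V)).congr_of_eventuallyEq (hzU x hU)
  · have e1 : ∀ᶠ y in 𝓝 x, χ y = 0 := notMem_tsupport_iff_eventuallyEq.1 hx
    rw [hw]
    beta_reduce
    rw [e1.self_of_nhds, fderiv_of_eventually_const e1, map_zero, zero_mul, zero_smul, sub_zero]
  · by_cases hU : x ∈ U
    · by_cases hO : x ∈ O
      · have d1 : DifferentiableAt ℝ χ x := hχ.smooth.differentiable (by simp) x
        have d2 : DifferentiableAt ℝ κ x := (hκ x hU).differentiableAt (by simp)
        have d3 : DifferentiableAt ℝ m x := (hm x hO).differentiableAt (by simp)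
        have d4 : DifferentiableAt ℝ (fun x => dx (fderiv ℝ χ x)) x :=
          (smAt_dx hχ.smooth x).differentiableAt (by simp)
        have e1 : extd w x = extd (fun x => χ x • κ x) x -
            extd (fun x => dx (fderiv ℝ χ x) * m x) x :=
          extd_sub (d1.smul d2) (d4.mul d3)
        have e2 : extd (fun x => dx (fderiv ℝ χ x)) x = 0 := extd_dx_fderiv hχ.smooth x
        rw [e1, extd_smul d1 d2, extd_mul d4 d3, e2, zero_mul, zero_add, inv_dx, ← h1 x hU]
        have e3 : ℓ x = ℓ' x + (κ x + extd m x) := by rw [← h2 x hO]; abel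
        rw [wv, wv, e3, smul_sub, mul_add, mul_add, neg_mul]
        abel
      · rw [extd_congr (hzO x hU hO), ← h1 x hU, wv, wv, (hχ.one x hU hO).self_of_nhds,
          fderiv_of_eventually_const (hχ.one x hU hO), map_zero, zero_mul, zero_mul, add_zero,
          add_zero, one_smul, one_smul]
    · rw [extd_congr (hzU x hU), extd_const]
      have e1 := hχ.near_zero hU
      rw [wv, wv, e1.self_of_nhds, fderiv_of_eventually_const e1, map_zero, zero_mul, zero_mul,
        zero_smul, zero_smul, sub_self]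

/-- **the total integral**: if `T` and `ℓ` have compact support -/
theorem Wn_total {N k : ℕ} (hN : N = k + 1) (b : Basis (Fin N) ℝ V) (h : Pair univ O T ℓ)
    (hχ : CutOf univ O χ) {K : Set V} (hK : IsCompact K) (hT : ∀ x ∉ K, T x = 0)
    (hl : ∀ x ∈ O, x ∉ K → ℓ x = 0) : JJ b T = Wn b χ T ℓ := by
  set w : V → Lam V := fun x => (1 - χ x) • ℓ x with hw
  have hz : ∀ x ∉ O, w =ᶠ[𝓝 x] fun _ => 0 := fun x hx => by
    filter_upwards [hχ.one x (mem_univ x) hx] with y hy
    rw [hw]
    beta_reduce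
    rw [hy, sub_self, zero_smul]
  have h1 := JJ_sub b (integrable_of b (fun x => h.smT x (mem_univ x)) hK hT)
    (integrable_of b (wv_smooth h hχ) hχ.cpt fun x hx => wv_zero hχ hx T ℓ)
  have h2 : JJ b (extd w) = 0 := by
    refine JJ_d hN b (fun x => ?_) hK fun x hx => ?_
    · by_cases hO : x ∈ O
      · exact (contDiff_const.sub hχ.smooth).contDiffAt.smul (h.sml x hO)
      · exact contDiffAt_const (c := (0 : Lam V)).congr_of_eventuallyEq (hz x hO)
    · by_cases hO : x ∈ O
      · rw [hw]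
        beta_reduce
        rw [hl x hO hx, smul_zero]
      · exact (hz x hO).self_of_nhds
  have h3 : ∀ x, T x - wv χ T ℓ x = extd w x := fun x => by
    by_cases hO : x ∈ O
    · have d1 : DifferentiableAt ℝ χ x := hχ.smooth.differentiable (by simp) x
      have d3 : DifferentiableAt ℝ ℓ x := (h.sml x hO).differentiableAt (by simp)
      have e1 : fderiv ℝ (fun x => 1 - χ x) x = -fderiv ℝ χ x := fderiv_const_sub (f := χ) 1
      rw [hw, extd_smul (f := fun x => 1 - χ x) ((differentiableAt_const _).sub d1) d3, h.d x hO,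
        e1, map_neg, wv,
        sub_smul, one_smul, neg_mul]
      abel
    · rw [extd_congr (hz x hO), extd_const, wv, (hχ.one x (mem_univ x) hO).self_of_nhds,
        fderiv_of_eventually_const (hχ.one x (mem_univ x) hO), map_zero, zero_mul, add_zero,
        one_smul, sub_self]
  rw [JJ_congr b h3, h2] at h1
  rw [Wn]
  linarith

end Int

end Vale.Agent.P231.S3B4
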